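import Crest.Agent.PT.Basic
import Crest.Prelude.Def_BitEnc

/-!
Binary natural numbers and integers: addition, subtraction, multiplication, sums and products over
ranges, and the codes of `Crest.Enc`.
-/

set_option autoImplicit false
set_option linter.dupNamespace false

namespace Crest.Agent.PT

/-- Natural numbers presented in binary. -/
structure Bin : Type where
  /-- the value -/
  val : ℕ

instance encBin : Enc Bin := ⟨fun x => x.val.bits⟩

theorem enc_bin (x : Bin) : enc x = x.val.bits := rfl
@[simp] theorem sz_bin (x : Bin) : sz x = x.val.size := Nat.size_eq_bits_len _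

/-- append a low bit -/
def Bin.bit (b : Bool) (x : Bin) : Bin := ⟨Nat.bit b x.val⟩
/-- halve -/
def Bin.div2 (x : Bin) : Bin := ⟨x.val / 2⟩
/-- parity -/
def Bin.bodd (x : Bin) : Bool := x.val.bodd
/-- zero test -/
def Bin.isZero (x : Bin) : Bool := decide (x.val = 0)
/-- sum -/
def Bin.add (x y : Bin) : Bin := ⟨x.val + y.val⟩
/-- truncated difference -/
def Bin.sub (x y : Bin) : Bin := ⟨x.val - y.val⟩
/-- product -/
def Bin.mul (x y : Bin) : Bin := ⟨x.val * y.val⟩

/-- Value of a string read with the most significant bit first. -/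
def valR (l : List Bool) : ℕ := l.foldl (fun n b => Nat.bit b n) 0

theorem foldl_bit (l : List Bool) (n : ℕ) :
    l.foldl (fun n b => Nat.bit b n) n = n * 2 ^ l.length + valR l := by
  induction l generalizing n with
  | nil => simp [valR]
  | cons b l ih =>
    simp only [valR, List.foldl_cons, List.length_cons]
    rw [ih, ih (Nat.bit b 0)]
    cases b <;> simp [Nat.bit] <;> ring

theorem valR_cons (b : Bool) (l : List Bool) :
    valR (b :: l) = b.toNat * 2 ^ l.length + valR l := by
  simp only [valR, List.foldl_cons]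
  rw [foldl_bit]
  cases b <;> simp [Nat.bit, valR]

theorem valR_lt (l : List Bool) : valR l < 2 ^ l.length := by
  induction l with
  | nil => simp [valR]
  | cons b l ih =>
    rw [valR_cons, List.length_cons, pow_succ]
    cases b <;> simp <;> omega

theorem size_add_le (a b : ℕ) : (a + b).size ≤ a.size + b.size + 1 := by
  rw [Nat.size_le]
  have h1 := Nat.lt_size_self a
  have h2 := Nat.lt_size_self b
  have h3 : 2 ^ a.size ≤ 2 ^ (a.size + b.size) := Nat.pow_le_pow_right (by omega) (by omega)
  have h4 : 2 ^ b.size ≤ 2 ^ (a.size + b.size) := Nat.pow_le_pow_right (by omega) (by omega)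
  rw [pow_succ]; omega

theorem size_mul_le (a b : ℕ) : (a * b).size ≤ a.size + b.size := by
  rw [Nat.size_le, pow_add]
  exact Nat.mul_lt_mul'' (Nat.lt_size_self a) (Nat.lt_size_self b)

theorem size_le_self (a : ℕ) : a.size ≤ a := by
  rw [Nat.size_le]; exact Nat.lt_two_pow_self

namespace PT

variable {α β γ : Type} [Enc α] [Enc β] [Enc γ]

@[fun_prop] theorem binIsZero {f : α → Bin} (hf : PT f) : PT (fun a => (f a).isZero) :=
  ((isNil (toRaw (α := Bin))).comp hf).congr (fun a => by
    rcases f a with ⟨n⟩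
    induction n using Nat.binaryRec' with
    | zero => simp [Raw.isNil, Bin.isZero, enc_bin]
    | bit b n h _ =>
      simp only [Raw.isNil, Bin.isZero, enc_bin, Nat.bits_append_bit n b h, List.isEmpty_cons]
      symm
      simp only [decide_eq_false_iff_not, Nat.bit_eq_zero_iff]
      rintro ⟨h1, h2⟩
      simp [h h1] at h2)

@[fun_prop] theorem binDiv2 {f : α → Bin} (hf : PT f) : PT (fun a => (f a).div2) :=
  (ofRaw (f := Bin.div2) tailR (fun x => by
    simp only [enc_bin, Bin.div2]
    rw [← Nat.div2_val, Nat.div2_bits_eq_tail])).comp hf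

@[fun_prop] theorem binBodd {f : α → Bin} (hf : PT f) : PT (fun a => (f a).bodd) :=
  ((head (toRaw (α := Bin))).comp hf).congr (fun a => by
    simp only [Raw.head, Bin.bodd, enc_bin, Nat.bodd_eq_bits_head]
    cases (f a).val.bits <;> rfl)

@[fun_prop] theorem binBit {b : α → Bool} {f : α → Bin} (hb : PT b) (hf : PT f) :
    PT (fun a => Bin.bit (b a) (f a)) := by
  have h : PT (fun a => bif (f a).isZero && !b a then Raw.nil else Raw.cons (b a) ⟨enc (f a)⟩) :=
    cond (by fun_prop) (const _) (cons hb (toRaw.comp hf))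
  refine h.of_enc_eq (fun a => ?_)
  rcases f a with ⟨n⟩
  by_cases h0 : n = 0 → b a = true
  · have : (Bin.isZero ⟨n⟩ && !b a) = false := by
      by_cases hn : n = 0
      · simp [h0 hn]
      · simp [Bin.isZero, hn]
    rw [this]
    simp [enc_bin, Bin.bit, Nat.bits_append_bit n _ h0]
  · push Not at h0
    obtain ⟨rfl, h1⟩ := h0
    have : b a = false := by simpa using h1
    simp [this, Bin.isZero, enc_bin, Bin.bit]

theorem ofRev {f : α → Raw} (hf : PT f) : PT (fun a => (⟨valR (f a).val⟩ : Bin)) := by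
  let F : Raw × Bin → Raw × Bin := fun p => (p.1.tail, Bin.bit p.1.head p.2)
  have hF : PT F := by fun_prop
  have key : ∀ (x : List Bool) (n i : ℕ), i ≤ x.length →
      F^[i] (⟨x⟩, ⟨n⟩) = (⟨x.drop i⟩, ⟨(x.take i).foldl (fun n b => Nat.bit b n) n⟩) := by
    intro x n i
    induction i generalizing x n with
    | zero => intro _; simp
    | succ i ih =>
      intro hi
      rcases x with _ | ⟨b, x⟩
      · simp at hi
      · rw [Function.iterate_succ_apply]
        have : F (⟨b :: x⟩, ⟨n⟩) = (⟨x⟩, ⟨Nat.bit b n⟩) := rfl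
        rw [this, ih x _ (by simpa using hi)]
        simp
  have h := iterate (h := fun a => (f a, (⟨0⟩ : Bin))) hF hf (by fun_prop)
    (B := fun a => 3 * sz (f a) + 1)
    (((PB.const 3).mul hf.pb).add (PB.const 1)) (fun a i hi => by
      have := key (f a).val 0 i hi
      rw [this]
      have h2 : (valR ((f a).val.take i)).size ≤ ((f a).val.take i).length := by
        rw [Nat.size_le]; exact valR_lt _
      simp only [sz_pair, sz_raw, List.length_drop, sz_bin, List.length_take] at h2 ⊢
      simp only [valR] at h2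
      omega)
  refine h.snd.congr (fun a => ?_)
  have := key (f a).val 0 (sz (f a)) le_rfl
  rw [this]
  simp [valR]

/-- One step of ripple addition (`neg = false`) or subtraction (`neg = true`). -/
def ripple (neg : Bool) (p : Bin × Bin × Bool × Raw) : Bin × Bin × Bool × Raw :=
  (p.1.div2, p.2.1.div2,
    ((Bool.xor neg p.1.bodd && p.2.1.bodd) || (Bool.xor neg p.1.bodd && p.2.2.1) ||
      (p.2.1.bodd && p.2.2.1)),
    Raw.cons (Bool.xor p.1.bodd (Bool.xor p.2.1.bodd p.2.2.1)) p.2.2.2)

theorem pt_ripple (neg : Bool) : PT (ripple neg) := by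
  unfold ripple; fun_prop

theorem ripple_spec (neg : Bool) (a b i : ℕ) :
    ∃ (c : Bool) (l : List Bool), (ripple neg)^[i] (⟨a⟩, ⟨b⟩, false, Raw.nil) =
      (⟨a / 2 ^ i⟩, ⟨b / 2 ^ i⟩, c, ⟨l⟩) ∧ l.length = i ∧
      (neg = false → valR l + 2 ^ i * (a / 2 ^ i + b / 2 ^ i + c.toNat) = a + b) ∧
      (neg = true → valR l + 2 ^ i * (a / 2 ^ i) + b = a + 2 ^ i * (b / 2 ^ i + c.toNat)) := by
  induction i with
  | zero => exact ⟨false, [], by simp [Raw.nil], rfl, by simp [valR], by simp [valR]⟩
  | succ i ih =>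
    obtain ⟨c, l, h1, h2, h3, h4⟩ := ih
    rw [Function.iterate_succ_apply', h1]
    refine ⟨((Bool.xor neg (a / 2 ^ i).bodd && (b / 2 ^ i).bodd) ||
        (Bool.xor neg (a / 2 ^ i).bodd && c) || ((b / 2 ^ i).bodd && c)),
      Bool.xor (a / 2 ^ i).bodd (Bool.xor (b / 2 ^ i).bodd c) :: l, ?_, ?_, ?_, ?_⟩
    · simp only [ripple, Bin.div2, Bin.bodd, Raw.cons, pow_succ, Nat.div_div_eq_div_mul]
    · simp [h2]
    · intro hn
      replace h3 := h3 hn
      subst hn
      rw [valR_cons, h2, pow_succ, ← Nat.div_div_eq_div_mul, ← Nat.div_div_eq_div_mul]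
      generalize a / 2 ^ i = u at *
      generalize b / 2 ^ i = v at *
      have hu := Nat.bodd_add_div2 u
      have hv := Nat.bodd_add_div2 v
      rw [Nat.div2_val] at hu hv
      generalize u / 2 = u' at *
      generalize v / 2 = v' at *
      rw [← hu, ← hv] at h3
      generalize u.bodd = bu at *
      generalize v.bodd = bv at *
      cases bu <;> cases bv <;> cases c <;> simp at h3 ⊢ <;> nlinarith
    · intro hn
      replace h4 := h4 hn
      subst hn
      rw [valR_cons, h2, pow_succ, ← Nat.div_div_eq_div_mul, ← Nat.div_div_eq_div_mul]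
      generalize a / 2 ^ i = u at *
      generalize b / 2 ^ i = v at *
      have hu := Nat.bodd_add_div2 u
      have hv := Nat.bodd_add_div2 v
      rw [Nat.div2_val] at hu hv
      generalize u / 2 = u' at *
      generalize v / 2 = v' at *
      rw [← hu, ← hv] at h4
      generalize u.bodd = bu at *
      generalize v.bodd = bv at *
      cases bu <;> cases bv <;> cases c <;> simp at h4 ⊢ <;> nlinarith

theorem pt_rippleRun (neg : Bool) {f g : α → Bin} (hf : PT f) (hg : PT g) :
    PT (fun a => (ripple neg)^[sz (f a) + sz (g a)] (f a, g a, false, Raw.nil)) := by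
  refine iter (pt_ripple neg) (by fun_prop) (by fun_prop)
    (B := fun a => 3 * sz (f a) + 3 * sz (g a) + 5)
    ((((PB.const 3).mul hf.pb).add ((PB.const 3).mul hg.pb)).add (PB.const 5)) (fun a i hi => ?_)
  obtain ⟨c, l, h1, h2, -, -⟩ := ripple_spec neg (f a).val (g a).val i
  have h1' : (ripple neg)^[i] (f a, g a, false, Raw.nil) = _ := h1
  rw [h1']
  have e1 := Nat.size_le_size (Nat.div_le_self (f a).val (2 ^ i))
  have e2 := Nat.size_le_size (Nat.div_le_self (g a).val (2 ^ i))
  simp only [sz_pair, sz_bin, sz_bool, sz_raw] at hi ⊢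
  omega

theorem div_pow_size (a b : ℕ) : a / 2 ^ (a.size + b.size) = 0 ∧ b / 2 ^ (a.size + b.size) = 0 :=
  ⟨Nat.div_eq_of_lt ((Nat.lt_size_self a).trans_le (Nat.pow_le_pow_right (by omega) (by omega))),
   Nat.div_eq_of_lt ((Nat.lt_size_self b).trans_le (Nat.pow_le_pow_right (by omega) (by omega)))⟩

@[fun_prop] theorem binAdd {f g : α → Bin} (hf : PT f) (hg : PT g) :
    PT (fun a => (f a).add (g a)) := by
  have h := pt_rippleRun false hf hg
  refine (ofRev (cons h.snd.snd.fst h.snd.snd.snd)).congr (fun a => ?_)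
  obtain ⟨c, l, h1, h2, h3, -⟩ := ripple_spec false (f a).val (g a).val (sz (f a) + sz (g a))
  have h1' : (ripple false)^[sz (f a) + sz (g a)] (f a, g a, false, Raw.nil) = _ := h1
  rw [h1']
  have h3 := h3 rfl
  simp only [sz_bin] at h2 h3
  rw [(div_pow_size _ _).1, (div_pow_size _ _).2] at h3
  simp only [Raw.val_cons, valR_cons, Bin.add, h2, ← h3]
  congr 1
  ring

@[fun_prop] theorem binSub {f g : α → Bin} (hf : PT f) (hg : PT g) :
    PT (fun a => (f a).sub (g a)) := by
  have h := pt_rippleRun true hf hg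
  refine (cond h.snd.snd.fst (const (⟨0⟩ : Bin)) (ofRev h.snd.snd.snd)).congr (fun a => ?_)
  obtain ⟨c, l, h1, h2, -, h3⟩ := ripple_spec true (f a).val (g a).val (sz (f a) + sz (g a))
  have h1' : (ripple true)^[sz (f a) + sz (g a)] (f a, g a, false, Raw.nil) = _ := h1
  rw [h1']
  have h3 := h3 rfl
  have h4 := valR_lt l
  simp only [sz_bin] at h2 h3
  rw [(div_pow_size _ _).1, (div_pow_size _ _).2] at h3
  rw [h2] at h4
  cases c
  · simp only [cond_false, Bin.sub]
    congr 1
    simp at h3; omega
  · simp only [cond_true, Bin.sub]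
    congr 1
    simp at h3; omega

@[fun_prop] theorem binMul {f g : α → Bin} (hf : PT f) (hg : PT g) :
    PT (fun a => (f a).mul (g a)) := by
  let F : Bin × Bin × Bin → Bin × Bin × Bin := fun p =>
    (Bin.bit false p.1, p.2.1.div2, bif p.2.1.bodd then p.2.2.add p.1 else p.2.2)
  have hF : PT F := by fun_prop
  have key : ∀ (x y i : ℕ), F^[i] (⟨x⟩, ⟨y⟩, ⟨0⟩) =
      (⟨x * 2 ^ i⟩, ⟨y / 2 ^ i⟩, ⟨x * (y % 2 ^ i)⟩) := by
    intro x y i
    induction i with
    | zero => simp [Nat.mod_one]
    | succ i ih =>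
      rw [Function.iterate_succ_apply', ih]
      simp only [F, Bin.bit, Bin.div2, Bin.bodd, Bin.add, Nat.div_div_eq_div_mul, ← pow_succ]
      refine Prod.ext ?_ (Prod.ext rfl ?_)
      · simp [Nat.bit]; ring
      · rw [Nat.mod_pow_succ, Nat.mod_two_of_bodd]
        cases (y / 2 ^ i).bodd
        · simp
        · simp; ring
  have h := iterate (h := fun a => (f a, g a, (⟨0⟩ : Bin))) hF hg (by fun_prop)
    (B := fun a => 3 * sz (f a) + 5 * sz (g a) + 4)
    ((((PB.const 3).mul hf.pb).add ((PB.const 5).mul hg.pb)).add (PB.const 4)) (fun a i hi => by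
      have := key (f a).val (g a).val i
      rw [this]
      have e1 := size_mul_le (f a).val (2 ^ i)
      have e2 := Nat.size_le_size (Nat.div_le_self (g a).val (2 ^ i))
      have e3 := size_mul_le (f a).val ((g a).val % 2 ^ i)
      have e4 := Nat.size_le_size (Nat.mod_le (g a).val (2 ^ i))
      rw [Nat.size_pow] at e1
      simp only [sz_pair, sz_bin] at hi ⊢
      omega)
  refine h.snd.snd.congr (fun a => ?_)
  have := key (f a).val (g a).val (sz (g a))
  rw [this]
  simp only [Bin.mul, sz_bin]
  rw [Nat.mod_eq_of_lt (Nat.lt_size_self _)]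

/-- From unary to binary. -/
theorem binOfNat {f : α → ℕ} (hf : PT f) : PT (fun a => (⟨f a⟩ : Bin)) := by
  refine (natRec_add (s := fun _ _ (b : Bin) => b.add ⟨1⟩) hf (const ⟨0⟩)
    (by fun_prop) (PB.const 2) (fun a i b => ?_)).congr (fun a => ?_)
  · simpa [Bin.add] using size_add_le b.val 1
  · induction f a with
    | zero => rfl
    | succ n ih => simp only [ih]; rfl

end PT

/-- Integers are presented by their positive and negative parts in binary. -/
instance encInt : Enc ℤ := ⟨fun z => enc ((⟨z.toNat⟩ : Bin), (⟨(-z).toNat⟩ : Bin))⟩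

theorem sz_int (z : ℤ) : sz z = 2 * z.toNat.size + (-z).toNat.size + 1 := by
  show sz ((⟨z.toNat⟩ : Bin), (⟨(-z).toNat⟩ : Bin)) = _
  simp

theorem sz_int_le (z : ℤ) : sz z ≤ 3 * z.natAbs.size + 1 := by
  rw [sz_int]
  have h1 := Nat.size_le_size (show z.toNat ≤ z.natAbs by omega)
  have h2 := Nat.size_le_size (show (-z).toNat ≤ z.natAbs by omega)
  omega

theorem size_natAbs_le (z : ℤ) : z.natAbs.size ≤ sz z := by
  rw [sz_int]
  rcases le_total 0 z with h | h
  · have : z.natAbs = z.toNat := by omega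
    rw [this]; omega
  · have : z.natAbs = (-z).toNat := by omega
    rw [this]; omega

namespace PT

variable {α β γ : Type} [Enc α] [Enc β] [Enc γ]

theorem intParts {f : α → ℤ} (hf : PT f) :
    PT (fun a => ((⟨(f a).toNat⟩ : Bin), (⟨(-f a).toNat⟩ : Bin))) :=
  hf.of_enc_eq (fun _ => rfl)

theorem intPos {f : α → ℤ} (hf : PT f) : PT (fun a => (⟨(f a).toNat⟩ : Bin)) := hf.intParts.fst
theorem intNeg {f : α → ℤ} (hf : PT f) : PT (fun a => (⟨(-f a).toNat⟩ : Bin)) := hf.intParts.snd

/-- The difference of two binary naturals as an integer. -/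
theorem intOfSub {f g : α → Bin} (hf : PT f) (hg : PT g) :
    PT (fun a => ((f a).val : ℤ) - (g a).val) :=
  ((hf.binSub hg).pair (hg.binSub hf)).of_enc_eq (fun a => by
    show enc ((f a).sub (g a), (g a).sub (f a)) =
      enc ((⟨(((f a).val : ℤ) - (g a).val).toNat⟩ : Bin), (⟨(-(((f a).val : ℤ) - (g a).val)).toNat⟩ : Bin))
    congr 2
    · simp only [Bin.sub]; congr 1; omega
    · simp only [Bin.sub]; congr 1; omega)

@[fun_prop] theorem intAdd {f g : α → ℤ} (hf : PT f) (hg : PT g) : PT (fun a => f a + g a) :=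
  (intOfSub (hf.intPos.binAdd hg.intPos) (hf.intNeg.binAdd hg.intNeg)).congr (fun a => by
    simp only [Bin.add]; omega)

@[fun_prop] theorem intNegate {f : α → ℤ} (hf : PT f) : PT (fun a => -f a) :=
  (intOfSub hf.intNeg hf.intPos).congr (fun a => by simp only; omega)

@[fun_prop] theorem intSub {f g : α → ℤ} (hf : PT f) (hg : PT g) : PT (fun a => f a - g a) :=
  (hf.intAdd hg.intNegate).congr (fun a => by ring)

@[fun_prop] theorem intMul {f g : α → ℤ} (hf : PT f) (hg : PT g) : PT (fun a => f a * g a) :=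
  (intOfSub ((hf.intPos.binMul hg.intPos).binAdd (hf.intNeg.binMul hg.intNeg))
    ((hf.intPos.binMul hg.intNeg).binAdd (hf.intNeg.binMul hg.intPos))).congr (fun a => by
    simp only [Bin.add, Bin.mul]
    push_cast
    have h1 := Int.toNat_sub_toNat_neg (f a)
    have h2 := Int.toNat_sub_toNat_neg (g a)
    generalize ((f a).toNat : ℤ) = x at *
    generalize ((-f a).toNat : ℤ) = y at *
    generalize ((g a).toNat : ℤ) = z at *
    generalize ((-g a).toNat : ℤ) = w at *
    rw [← h1, ← h2]; ring)

@[fun_prop] theorem intCast {f : α → ℕ} (hf : PT f) : PT (fun a => (f a : ℤ)) :=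
  (intOfSub hf.binOfNat (const (⟨0⟩ : Bin))).congr (fun a => by simp)

theorem intOfBin {f : α → Bin} (hf : PT f) : PT (fun a => ((f a).val : ℤ)) :=
  (intOfSub hf (const (⟨0⟩ : Bin))).congr (fun a => by simp)

theorem intNatAbs {f : α → ℤ} (hf : PT f) : PT (fun a => (⟨(f a).natAbs⟩ : Bin)) :=
  (hf.intPos.binAdd hf.intNeg).congr (fun a => by simp only [Bin.add]; congr 1; omega)

theorem intLtZero {f : α → ℤ} (hf : PT f) : PT (fun a => decide (f a < 0)) :=
  hf.intNeg.binIsZero.not.congr (fun a => by
    simp only [Bin.isZero]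
    by_cases h : f a < 0
    · simp [h]
    · simp [h]; omega)

theorem intLt {f g : α → ℤ} (hf : PT f) (hg : PT g) : PT (fun a => decide (f a < g a)) :=
  (hf.intSub hg).intLtZero.congr (fun a => by simp)

theorem intLe {f g : α → ℤ} (hf : PT f) (hg : PT g) : PT (fun a => decide (f a ≤ g a)) :=
  (intLt hg hf).not.congr (fun a => by rw [← decide_not]; simp)

theorem intEq {f g : α → ℤ} (hf : PT f) (hg : PT g) : PT (fun a => decide (f a = g a)) :=
  ((intLe hf hg).and (intLe hg hf)).congr (fun a => by simp [le_antisymm_iff])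

@[fun_prop] theorem sumInt {g : α → ℕ} {f : α → ℕ → ℤ} (hg : PT g)
    (hf : PT (fun p : α × ℕ => f p.1 p.2)) :
    PT (fun a => ∑ i ∈ Finset.range (g a), f a i) := by
  have hf' : PT (fun p : α × ℕ × ℤ => f p.1 p.2.1) :=
    hf.comp (f := fun p : α × ℕ × ℤ => (p.1, p.2.1)) (by fun_prop)
  have key : ∀ a n, (Nat.rec 0 (fun i b => b + f a i) n : ℤ) = ∑ i ∈ Finset.range n, f a i := by
    intro a n
    induction n with
    | zero => rfl
    | succ n ih => simp only [ih, Finset.sum_range_succ]
  obtain ⟨k, hk⟩ := hf.pb.exists_mono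
  refine (natRec (s := fun a i b => b + f a i) hg (const 0) (by fun_prop)
    (B := fun a => 3 * (g a * ((2 * sz a + g a + 1 + 2) ^ k + 1)) + 1)
    (((PB.const 3).mul (hg.pbNat.mul (((((((PB.const 2).mul PB.size).add hg.pbNat).add
      (PB.const 1)).add (PB.const 2)).pow k).add (PB.const 1)))).add (PB.const 1))
    (fun a i hi => ?_)).congr (fun a => key _ _)
  have : ∀ j, j ≤ g a → (Nat.rec 0 (fun i b => b + f a i) j : ℤ).natAbs.size ≤
      j * ((2 * sz a + g a + 1 + 2) ^ k + 1) := by
    intro j
    induction j with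
    | zero => intro _; simp
    | succ j ih =>
      intro hj
      have h1 := ih (by omega)
      have h3 := hk (a, j) (2 * sz a + g a + 1) (by simp only [sz_pair, sz_nat]; omega)
      have h4 := size_natAbs_le (f a j)
      have h5 := Nat.size_le_size (Int.natAbs_add_le (Nat.rec 0 (fun i b => b + f a i) j : ℤ) (f a j))
      have h6 := size_add_le (Nat.rec 0 (fun i b => b + f a i) j : ℤ).natAbs (f a j).natAbs
      show ((Nat.rec 0 (fun i b => b + f a i) j : ℤ) + f a j).natAbs.size ≤ _
      rw [Nat.succ_mul]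
      simp only at h3
      omega
  have h1 := (this i hi).trans (Nat.mul_le_mul_right _ hi)
  exact (sz_int_le _).trans (by omega)

@[fun_prop] theorem prodInt {g : α → ℕ} {f : α → ℕ → ℤ} (hg : PT g)
    (hf : PT (fun p : α × ℕ => f p.1 p.2)) :
    PT (fun a => ∏ i ∈ Finset.range (g a), f a i) := by
  have hf' : PT (fun p : α × ℕ × ℤ => f p.1 p.2.1) :=
    hf.comp (f := fun p : α × ℕ × ℤ => (p.1, p.2.1)) (by fun_prop)
  have key : ∀ a n, (Nat.rec 1 (fun i b => b * f a i) n : ℤ) = ∏ i ∈ Finset.range n, f a i := by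
    intro a n
    induction n with
    | zero => rfl
    | succ n ih => simp only [ih, Finset.prod_range_succ]
  obtain ⟨k, hk⟩ := hf.pb.exists_mono
  refine (natRec (s := fun a i b => b * f a i) hg (const 1) (by fun_prop)
    (B := fun a => 3 * (g a * ((2 * sz a + g a + 1 + 2) ^ k) + 1) + 1)
    (((PB.const 3).mul ((hg.pbNat.mul ((((((PB.const 2).mul PB.size).add hg.pbNat).add
      (PB.const 1)).add (PB.const 2)).pow k)).add (PB.const 1))).add (PB.const 1))
    (fun a i hi => ?_)).congr (fun a => key _ _)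
  have : ∀ j, j ≤ g a → (Nat.rec 1 (fun i b => b * f a i) j : ℤ).natAbs.size ≤
      j * ((2 * sz a + g a + 1 + 2) ^ k) + 1 := by
    intro j
    induction j with
    | zero => intro _; simp
    | succ j ih =>
      intro hj
      have h1 := ih (by omega)
      have h3 := hk (a, j) (2 * sz a + g a + 1) (by simp only [sz_pair, sz_nat]; omega)
      have h4 := size_natAbs_le (f a j)
      have h6 := size_mul_le (Nat.rec 1 (fun i b => b * f a i) j : ℤ).natAbs (f a j).natAbs
      show ((Nat.rec 1 (fun i b => b * f a i) j : ℤ) * f a j).natAbs.size ≤ _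
      rw [Nat.succ_mul, Int.natAbs_mul]
      simp only at h3
      omega
  have h1 := (this i hi).trans (Nat.add_le_add_right (Nat.mul_le_mul_right _ hi) 1)
  exact (sz_int_le _).trans (by omega)

@[fun_prop] theorem intPow {f : α → ℤ} {g : α → ℕ} (hf : PT f) (hg : PT g) :
    PT (fun a => f a ^ g a) :=
  (prodInt (f := fun a _ => f a) hg (by fun_prop)).congr (fun a => by simp)

end PT

/-- The code of a natural number given in binary. -/
def Bin.code (x : Bin) : Raw := ⟨Crest.Enc.natCode x.val⟩

/-- The code of a natural number given in unary. -/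
def natCodeR (n : ℕ) : Raw := ⟨Crest.Enc.natCode n⟩

/-- The code of the absolute value of an integer. -/
def absCodeR (z : ℤ) : Raw := ⟨Crest.Enc.natCode z.natAbs⟩

/-- The rational code of an integer. -/
def intRatCodeR (z : ℤ) : Raw := ⟨Crest.Enc.ratCode (z : ℚ)⟩

namespace PT

variable {α β γ : Type} [Enc α] [Enc β] [Enc γ]

@[fun_prop] theorem binCode {f : α → Bin} (hf : PT f) : PT (fun a => (f a).code) :=
  (hf.pair (const (⟨[false]⟩ : Raw))).of_enc_eq (fun a => by
    simp [enc_pair, Bin.code, Crest.Enc.natCode, dbl, enc_bin, List.flatMap])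

@[fun_prop] theorem natCode {f : α → ℕ} (hf : PT f) : PT (fun a => natCodeR (f a)) :=
  hf.binOfNat.binCode

@[fun_prop] theorem absCode {f : α → ℤ} (hf : PT f) : PT (fun a => absCodeR (f a)) :=
  hf.intNatAbs.binCode

@[fun_prop] theorem intRatCode {f : α → ℤ} (hf : PT f) : PT (fun a => intRatCodeR (f a)) :=
  (cons hf.intLtZero (app hf.absCode (const (natCodeR 1)))).congr (fun a => by
    simp [intRatCodeR, Crest.Enc.ratCode, Raw.cons, Raw.app, absCodeR, natCodeR])

end PT

end Crest.Agent.PT
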