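import Crest.Agent.PT.Mach

/-!
Typed polynomial-time functions: the predicate `PT f` for `f : α → β` between encoded types,
and its closure under composition, pairing, conditionals and bounded iteration.
-/

set_option autoImplicit false
set_option linter.dupNamespace false

namespace Crest.Agent.PT

namespace Mach

variable {K : Type}

/-- Empty a register. -/
def clear (k : K) : Mach K := loop k false skip skip

theorem runs_clear (k : K) (S : K → List Bool) :
    (clear k).Runs S (upd S k []) ((S k).length + 1) := by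
  generalize hx : S k = x
  induction x generalizing S with
  | nil =>
    have : upd S k [] = S := by rw [← hx, upd_self]
    rw [this]; exact Runs.loop_nil hx
  | cons b x ih =>
    have h := ih (upd S k x) (by simp)
    rw [upd_upd] at h
    cases b
    · exact (Runs.loop_false hx (runs_skip _) h).mono (by simp)
    · exact (Runs.loop_true hx (runs_skip _) h).mono (by simp)

/-- Push a fixed word. -/
def pushList (k : K) : List Bool → Mach K
  | [] => skip
  | b :: w => seq (pushList k w) (push k b)

theorem runs_pushList (k : K) (w : List Bool) (S : K → List Bool) :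
    (pushList k w).Runs S (upd S k (w ++ S k)) w.length := by
  induction w with
  | nil => simpa [pushList] using runs_skip S
  | cons b w ih =>
    have := ih.seq (runs_push k b _)
    simpa [pushList] using this

/-- Generic transfer loop: pop all bits of `k`, pushing the word `u b` on `k1` and the word `v b`
on `k2` for each popped bit `b`. -/
def transfer (k k1 k2 : K) (u v : Bool → List Bool) : Mach K :=
  loop k false (seq (pushList k1 (u true)) (pushList k2 (v true)))
    (seq (pushList k1 (u false)) (pushList k2 (v false)))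

theorem runs_transfer {k k1 k2 : K} (h1 : k1 ≠ k) (h2 : k2 ≠ k) (h12 : k1 ≠ k2)
    (u v : Bool → List Bool) (hu : ∀ b, (u b).length ≤ 2) (hv : ∀ b, (v b).length ≤ 2)
    (S : K → List Bool) :
    (transfer k k1 k2 u v).Runs S
      (upd (upd (upd S k []) k1 ((S k).reverse.flatMap u ++ S k1)) k2
        ((S k).reverse.flatMap v ++ S k2)) (5 * (S k).length + 1) := by
  generalize hx : S k = x
  induction x generalizing S with
  | nil =>
    have : upd (upd (upd S k []) k1 (([] : List Bool).reverse.flatMap u ++ S k1)) k2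
        (([] : List Bool).reverse.flatMap v ++ S k2) = S := by
      rw [← hx, upd_self]
      simp [hx]
    rw [this]; exact Runs.loop_nil hx
  | cons b x ih =>
    have hb := (runs_pushList k1 (u b) (upd S k x)).seq (runs_pushList k2 (v b) _)
    have h := ih (upd (upd (upd S k x) k1 (u b ++ upd S k x k1)) k2
      (v b ++ upd (upd S k x) k1 (u b ++ upd S k x k1) k2))
      (by rw [upd_ne _ _ h2.symm, upd_ne _ _ h1.symm, upd_same])
    have e : upd (upd (upd (upd (upd (upd S k x) k1 (u b ++ upd S k x k1)) k2
        (v b ++ upd (upd S k x) k1 (u b ++ upd S k x k1) k2)) k []) k1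
        (x.reverse.flatMap u ++ upd (upd (upd S k x) k1 (u b ++ upd S k x k1)) k2
        (v b ++ upd (upd S k x) k1 (u b ++ upd S k x k1) k2) k1)) k2
        (x.reverse.flatMap v ++ upd (upd (upd S k x) k1 (u b ++ upd S k x k1)) k2
        (v b ++ upd (upd S k x) k1 (u b ++ upd S k x k1) k2) k2) =
        upd (upd (upd S k []) k1 ((b :: x).reverse.flatMap u ++ S k1)) k2
        ((b :: x).reverse.flatMap v ++ S k2) := by
      funext j
      by_cases a2 : j = k2
      · subst a2
        simp [upd_ne _ _ h12.symm, upd_ne _ _ h2]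
      · by_cases a1 : j = k1
        · subst a1
          simp [upd_ne _ _ a2, upd_ne _ _ h1]
        · by_cases a0 : j = k
          · subst a0
            simp [upd_ne _ _ a2, upd_ne _ _ a1]
          · simp [upd_ne _ _ a2, upd_ne _ _ a1, upd_ne _ _ a0]
    rw [e] at h
    have := hu b
    have := hv b
    cases b
    · exact (Runs.loop_false hx hb h).mono (by simp only [List.length_cons]; omega)
    · exact (Runs.loop_true hx hb h).mono (by simp only [List.length_cons]; omega)

end Mach

/-- Doubling code: every bit is preceded by `true`. -/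
def dbl (x : List Bool) : List Bool := x.flatMap (fun b => [true, b])

@[simp] theorem dbl_nil : dbl [] = [] := rfl
@[simp] theorem dbl_cons (b : Bool) (x : List Bool) : dbl (b :: x) = true :: b :: dbl x := rfl

@[simp] theorem length_dbl (x : List Bool) : (dbl x).length = 2 * x.length := by
  induction x with
  | nil => rfl
  | cons b x ih => simp [ih]; omega

/-- Read a doubling code off the front of a string. -/
def fstL : List Bool → List Bool
  | true :: b :: x => b :: fstL x
  | _ => []

/-- Skip a doubling code and its terminator. -/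
def sndL : List Bool → List Bool
  | true :: _ :: x => sndL x
  | false :: x => x
  | _ => []

@[simp] theorem fstL_pair (x y : List Bool) : fstL (dbl x ++ false :: y) = x := by
  induction x with
  | nil => rfl
  | cons b x ih => simp [fstL, ih]

@[simp] theorem sndL_pair (x y : List Bool) : sndL (dbl x ++ false :: y) = y := by
  induction x with
  | nil => rfl
  | cons b x ih => simp [sndL, ih]

namespace Mach

variable {K : Type}

/-- Undo the doubling code, moving the (reversed) result to `k1` and leaving the rest in `k`. -/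
def unDbl (k k1 : K) : Mach K :=
  loop k true (case k skip (push k1 true) (push k1 false)) skip

theorem runs_unDbl {k k1 : K} (h1 : k1 ≠ k) (S : K → List Bool) :
    (unDbl k k1).Runs S (upd (upd S k (sndL (S k))) k1 ((fstL (S k)).reverse ++ S k1))
      (2 * (S k).length + 2) := by
  generalize hx : S k = x
  induction x using fstL.induct generalizing S with
  | case1 b x ih =>
    have hb : (case k skip (push k1 true) (push k1 false)).Runs (upd S k (b :: x))
        (upd (upd S k x) k1 (b :: S k1)) 2 := by
      cases b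
      · have := Runs.case_false (M0 := skip) (MT := push k1 true) (S := upd S k (false :: x))
          (upd_same _ _ _) (runs_push k1 false _)
        simpa [upd_ne _ _ h1] using this
      · have := Runs.case_true (M0 := skip) (MF := push k1 false) (S := upd S k (true :: x))
          (upd_same _ _ _) (runs_push k1 true _)
        simpa [upd_ne _ _ h1] using this
    have h := ih (upd (upd S k x) k1 (b :: S k1)) (by rw [upd_ne _ _ h1.symm, upd_same])
    have e : upd (upd (upd (upd S k x) k1 (b :: S k1)) k (sndL x)) k1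
        ((fstL x).reverse ++ upd (upd S k x) k1 (b :: S k1) k1) =
        upd (upd S k (sndL (true :: b :: x))) k1 ((fstL (true :: b :: x)).reverse ++ S k1) := by
      funext j
      by_cases a1 : j = k1
      · subst a1; simp [fstL]
      · by_cases a0 : j = k
        · subst a0; simp [upd_ne _ _ a1, sndL]
        · simp [upd_ne _ _ a1, upd_ne _ _ a0]
    rw [e] at h
    exact (Runs.loop_true hx hb h).mono (by simp only [List.length_cons]; omega)
  | case2 x hne =>
    rcases x with _ | ⟨_ | _, x⟩
    · have : upd (upd S k (sndL [])) k1 ((fstL []).reverse ++ S k1) = S := by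
        simp only [sndL, fstL, List.reverse_nil, List.nil_append]
        rw [← hx, upd_self, upd_self]
      rw [this]
      exact (Runs.loop_nil hx).mono (by omega)
    · have : upd (upd S k (sndL (false :: x))) k1 ((fstL (false :: x)).reverse ++ S k1) =
          upd S k x := by
        simp only [sndL, fstL, List.reverse_nil, List.nil_append]
        rw [← upd_ne S x h1, upd_self]
      rw [this]
      exact (Runs.loop_stop hx).mono (by omega)
    · rcases x with _ | ⟨b, x⟩
      · have : upd (upd S k (sndL [true])) k1 ((fstL [true]).reverse ++ S k1) = upd S k [] := by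
          simp only [sndL, fstL, List.reverse_nil, List.nil_append]
          rw [← upd_ne S [] h1, upd_self]
        rw [this]
        have hb : (case k skip (push k1 true) (push k1 false)).Runs (upd S k []) (upd S k []) 1 :=
          Runs.case_nil (upd_same _ _ _) (runs_skip _)
        exact (Runs.loop_true hx hb (Runs.loop_nil (upd_same _ _ _))).mono (by simp)
      · exact (hne b x rfl).elim

end Mach

/-- Three-register stores. -/
def st3 {τ : Type} (x y z : List Bool) : Option (Bool ⊕ τ) → List Bool
  | none => x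
  | some (Sum.inl false) => y
  | some (Sum.inl true) => z
  | some (Sum.inr _) => []

/-- first auxiliary register -/
abbrev r1 {τ : Type} : Option (Bool ⊕ τ) := some (Sum.inl false)
/-- second auxiliary register -/
abbrev r2 {τ : Type} : Option (Bool ⊕ τ) := some (Sum.inl true)

section st3
variable {τ : Type} (x y z v : List Bool)

@[simp] theorem st3_io : (st3 x y z : Option (Bool ⊕ τ) → _) none = x := rfl
@[simp] theorem st3_r1 : (st3 x y z : Option (Bool ⊕ τ) → _) r1 = y := rfl
@[simp] theorem st3_r2 : (st3 x y z : Option (Bool ⊕ τ) → _) r2 = z := rfl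
@[simp] theorem st3_tmp (t : τ) : (st3 x y z : Option (Bool ⊕ τ) → _) (some (Sum.inr t)) = [] := rfl

@[simp] theorem upd_st3_io : upd (st3 x y z : Option (Bool ⊕ τ) → _) none v = st3 v y z := by
  funext j; rcases j with _ | (_ | _) | _ <;> simp [upd, st3]
@[simp] theorem upd_st3_r1 : upd (st3 x y z : Option (Bool ⊕ τ) → _) r1 v = st3 x v z := by
  funext j; rcases j with _ | (_ | _) | _ <;> simp [upd, st3]
@[simp] theorem upd_st3_r2 : upd (st3 x y z : Option (Bool ⊕ τ) → _) r2 v = st3 x y v := by
  funext j; rcases j with _ | (_ | _) | _ <;> simp [upd, st3]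

theorem st_eq_st3 : (st x : Option (Bool ⊕ τ) → _) = st3 x [] [] := by
  funext j; rcases j with _ | (_ | _) | _ <;> rfl

end st3

/-- Register embedding: the input/output register goes to `r`, temporaries through `j`. -/
def emb {τ τ' : Type} (r : Option (Bool ⊕ τ)) (j : τ' → τ) : Option τ' → Option (Bool ⊕ τ)
  | none => r
  | some t => some (Sum.inr (j t))

theorem runs_emb {τ τ' : Type} {r : Option (Bool ⊕ τ)} (hr : ∀ t, r ≠ some (Sum.inr t))
    {j : τ' → τ} (hj : Function.Injective j) {M : Mach (Option τ')} {x x' : List Bool} {t : ℕ}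
    (h : M.Runs (st x) (st x') t) (S : Option (Bool ⊕ τ) → List Bool) (hS : S r = x)
    (hS' : ∀ t, S (some (Sum.inr t)) = []) : (M.rename (emb r j)).Runs S (upd S r x') t := by
  refine h.rename ?_ S ?_ _ ?_ ?_
  · rintro (_ | a) (_ | b) hab
    · rfl
    · exact (hr _ hab).elim
    · exact (hr _ hab.symm).elim
    · simp only [emb, Option.some.injEq, Sum.inr.injEq] at hab
      rw [hj hab]
  · rintro (_ | a)
    · exact hS
    · exact hS' _
  · rintro (_ | a)
    · simp [emb, st]
    · simp only [emb, st]
      rw [upd_ne _ _ (hr _).symm, hS']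
  · intro i hi
    exact upd_ne _ _ (fun h => hi ⟨none, h.symm⟩)

namespace Mach
variable {τ : Type}

/-- Move a register to another one, reversing it. -/
def move (k k1 k2 : Option (Bool ⊕ τ)) : Mach (Option (Bool ⊕ τ)) :=
  transfer k k1 k2 (fun b => [b]) (fun _ => [])

theorem flatMap_single (x : List Bool) : x.flatMap (fun b => [b]) = x := by
  induction x <;> simp_all

theorem flatMap_nil' (x : List Bool) : x.flatMap (fun _ => ([] : List Bool)) = [] := by
  induction x <;> simp_all

theorem runs_move {k k1 k2 : Option (Bool ⊕ τ)} (h1 : k1 ≠ k) (h2 : k2 ≠ k) (h12 : k1 ≠ k2)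
    (S : Option (Bool ⊕ τ) → List Bool) :
    (move k k1 k2).Runs S (upd (upd S k []) k1 ((S k).reverse ++ S k1)) (5 * (S k).length + 1) := by
  have := runs_transfer h1 h2 h12 (fun b => [b]) (fun _ => []) (by simp) (by simp) S
  rw [flatMap_single, flatMap_nil', List.nil_append] at this
  have e : S k2 = upd (upd S k []) k1 ((S k).reverse ++ S k1) k2 := by
    rw [upd_ne _ _ h12.symm, upd_ne _ _ h2]
  rw [e, upd_self] at this
  exact this

/-- Copy the input/output register to the second auxiliary register. -/
def copy : Mach (Option (Bool ⊕ τ)) :=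
  seq (move none r1 r2) (transfer r1 none r2 (fun b => [b]) (fun b => [b]))

theorem runs_copy (x : List Bool) :
    (copy : Mach (Option (Bool ⊕ τ))).Runs (st3 x [] []) (st3 x [] x) (10 * x.length + 2) := by
  have h1 := runs_move (τ := τ) (k := none) (k1 := r1) (k2 := r2) (by simp) (by simp) (by simp)
    (st3 x [] [])
  have h2 := runs_transfer (K := Option (Bool ⊕ τ)) (k := r1) (k1 := none) (k2 := r2) (by simp)
    (by simp) (by simp) (fun b => [b]) (fun b => [b]) (by simp) (by simp) (st3 [] x.reverse [])
  simp only [st3_io, st3_r1, upd_st3_io, upd_st3_r1, List.append_nil] at h1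
  simp only [st3_io, st3_r1, st3_r2, upd_st3_io, upd_st3_r1, upd_st3_r2, List.append_nil,
    flatMap_single, List.reverse_reverse, List.length_reverse] at h2
  exact (h1.seq h2).mono (by omega)

/-- Build the pair code of the input/output register and the second auxiliary register. -/
def mkPair : Mach (Option (Bool ⊕ τ)) :=
  seq (push r2 false) (seq (move none r1 r2)
    (seq (transfer r1 r2 none (fun b => [true, b]) (fun _ => []))
      (seq (move r2 r1 none) (move r1 none r2))))

theorem runs_mkPair (x y : List Bool) :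
    (mkPair : Mach (Option (Bool ⊕ τ))).Runs (st3 x [] y) (st3 (dbl x ++ false :: y) [] [])
      (30 * x.length + 10 * y.length + 15) := by
  have h1 := runs_push (K := Option (Bool ⊕ τ)) r2 false (st3 x [] y)
  have h2 := runs_move (τ := τ) (k := none) (k1 := r1) (k2 := r2) (by simp) (by simp) (by simp)
    (st3 x [] (false :: y))
  have h3 := runs_transfer (K := Option (Bool ⊕ τ)) (k := r1) (k1 := r2) (k2 := none) (by simp)
    (by simp) (by simp) (fun b => [true, b]) (fun _ => []) (by simp) (by simp)
    (st3 [] x.reverse (false :: y))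
  have h4 := runs_move (τ := τ) (k := r2) (k1 := r1) (k2 := none) (by simp) (by simp) (by simp)
    (st3 [] [] (dbl x ++ false :: y))
  have h5 := runs_move (τ := τ) (k := r1) (k1 := none) (k2 := r2) (by simp) (by simp) (by simp)
    (st3 [] (dbl x ++ false :: y).reverse [])
  simp only [st3_io, st3_r1, st3_r2, upd_st3_io, upd_st3_r1, upd_st3_r2, List.append_nil,
    flatMap_nil', List.reverse_reverse, List.length_reverse] at h1 h2 h3 h4 h5
  refine (h1.seq (h2.seq (h3.seq (h4.seq h5)))).mono ?_
  simp; omega

end Mach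

/-- Types with a bit-string presentation. -/
class Enc (α : Type) where
  /-- the code -/
  enc : α → List Bool

export Enc (enc)

/-- Size of an object: length of its code. -/
def sz {α : Type} [Enc α] (a : α) : ℕ := (enc a).length

/-- Polynomially bounded quantities. -/
def PB {α : Type} [Enc α] (g : α → ℕ) : Prop := ∃ k : ℕ, ∀ a, g a ≤ (sz a + 2) ^ k

/-- Polynomial-time functions between encoded types. -/
def PT {α β : Type} [Enc α] [Enc β] (f : α → β) : Prop :=
  ∃ (τ : Type) (_ : Finite τ) (M : Mach (Option τ)) (T : α → ℕ), PB T ∧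
    ∀ a, M.Runs (st (enc a)) (st (enc (f a))) (T a)

namespace PB

variable {α β : Type} [Enc α] [Enc β]

theorem of_le {g h : α → ℕ} (hh : PB h) (H : ∀ a, g a ≤ h a) : PB g := by
  obtain ⟨k, hk⟩ := hh
  exact ⟨k, fun a => (H a).trans (hk a)⟩

theorem const (c : ℕ) : PB (fun _ : α => c) :=
  ⟨c, fun a => (Nat.lt_two_pow_self.le).trans (Nat.pow_le_pow_left (by omega) c)⟩

theorem size : PB (fun a : α => sz a) := ⟨1, fun a => by simp⟩

theorem add {g h : α → ℕ} (hg : PB g) (hh : PB h) : PB (fun a => g a + h a) := by
  obtain ⟨k, hk⟩ := hg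
  obtain ⟨l, hl⟩ := hh
  refine ⟨k + l + 1, fun a => ?_⟩
  have h1 : (sz a + 2) ^ k ≤ (sz a + 2) ^ (k + l) := Nat.pow_le_pow_right (by omega) (by omega)
  have h2 : (sz a + 2) ^ l ≤ (sz a + 2) ^ (k + l) := Nat.pow_le_pow_right (by omega) (by omega)
  have := hk a
  have := hl a
  rw [pow_succ]
  nlinarith [Nat.zero_le ((sz a + 2) ^ (k + l)), Nat.zero_le (sz a)]

theorem mul {g h : α → ℕ} (hg : PB g) (hh : PB h) : PB (fun a => g a * h a) := by
  obtain ⟨k, hk⟩ := hg
  obtain ⟨l, hl⟩ := hh
  exact ⟨k + l, fun a => by rw [pow_add]; exact Nat.mul_le_mul (hk a) (hl a)⟩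

theorem pow {g : α → ℕ} (hg : PB g) (n : ℕ) : PB (fun a => g a ^ n) := by
  induction n with
  | zero => simpa using const 1
  | succ n ih => simpa [pow_succ] using ih.mul hg

/-- Composition with a map of polynomially bounded size. -/
theorem comp {g : β → ℕ} (hg : PB g) {f : α → β} (hf : PB (fun a => sz (f a))) :
    PB (fun a => g (f a)) := by
  obtain ⟨k, hk⟩ := hg
  exact ((hf.add (const 2)).pow k).of_le (fun a => hk _)

/-- A bound on `g` at any argument whose size is at most `n`. -/
theorem exists_mono {g : α → ℕ} (hg : PB g) :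
    ∃ k : ℕ, ∀ a n, sz a ≤ n → g a ≤ (n + 2) ^ k := by
  obtain ⟨k, hk⟩ := hg
  exact ⟨k, fun a n h => (hk a).trans (Nat.pow_le_pow_left (by omega) k)⟩

end PB

namespace PT

variable {α β γ : Type} [Enc α] [Enc β] [Enc γ]

/-- The output of a polynomial-time function has polynomially bounded size. -/
theorem pb {f : α → β} (hf : PT f) : PB (fun a => sz (f a)) := by
  obtain ⟨τ, _, M, T, hT, h⟩ := hf
  exact (PB.size.add hT).of_le (fun a => (h a).length_le none)

theorem toPolyTime {f : α → β} (hf : PT f) :
    Crest.Complexity.PolyTimeComputable (enc : α → List Bool) (enc : β → List Bool) f := by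
  obtain ⟨τ, _, M, T, ⟨k, hk⟩, h⟩ := hf
  refine polyTimeComputable_of_runs _ _ f M ((Polynomial.X + 2) ^ k) (fun a => ?_)
  refine (h a).mono ?_
  simpa [sz] using hk a

/-- Change of the function without changing the codes of the values. -/
theorem of_enc_eq {f : α → β} {g : α → γ} (hf : PT f) (H : ∀ a, enc (f a) = enc (g a)) :
    PT g := by
  obtain ⟨τ, _, M, T, hT, h⟩ := hf
  exact ⟨τ, inferInstance, M, T, hT, fun a => H a ▸ h a⟩

theorem congr {f g : α → β} (hf : PT f) (H : ∀ a, f a = g a) : PT g :=
  hf.of_enc_eq (fun a => by rw [H a])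

theorem id' : PT (fun a : α => a) :=
  ⟨Unit, inferInstance, Mach.skip, fun _ => 0, PB.const 0, fun _ => Mach.runs_skip _⟩

/-- Reinterpretation of codes. -/
theorem reinterp {f : α → β} (H : ∀ a, enc a = enc (f a)) : PT f := id'.of_enc_eq H

theorem comp {g : β → γ} {f : α → β} (hg : PT g) (hf : PT f) : PT (fun a => g (f a)) := by
  have hpb := hf.pb
  obtain ⟨τ, _, M, T, hT, h⟩ := hf
  obtain ⟨τ', _, M', T', hT', h'⟩ := hg
  refine ⟨Bool ⊕ (τ ⊕ τ'), inferInstance,
    (M.rename (emb none Sum.inl)).seq (M'.rename (emb none Sum.inr)),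
    fun a => T a + T' (f a), hT.add (hT'.comp hpb), fun a => ?_⟩
  have h1 := runs_emb (τ := τ ⊕ τ') (r := none) (by simp) Sum.inl_injective (h a)
    (st3 (enc a) [] []) rfl (fun _ => rfl)
  have h2 := runs_emb (τ := τ ⊕ τ') (r := none) (by simp) Sum.inr_injective (h' (f a))
    (st3 (enc (f a)) [] []) rfl (fun _ => rfl)
  simp only [upd_st3_io] at h1 h2
  rw [st_eq_st3, st_eq_st3]
  exact h1.seq h2

theorem const (b : β) : PT (fun _ : α => b) := by
  refine ⟨Unit, inferInstance, (Mach.clear none).seq (Mach.pushList none (enc b)),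
    fun a => sz a + 1 + sz b, (PB.size.add (PB.const 1)).add (PB.const _), fun a => ?_⟩
  have := (Mach.runs_clear (K := Option Unit) none (st (enc a))).seq
    (Mach.runs_pushList none (enc b) _)
  have e : upd (upd (st (enc a) : Option Unit → _) none []) none
      (enc b ++ upd (st (enc a) : Option Unit → _) none [] none) = st (enc b) := by
    funext j; cases j <;> simp [upd, st]
  rw [e] at this
  exact this

end PT

instance encProd {α β : Type} [Enc α] [Enc β] : Enc (α × β) :=
  ⟨fun p => dbl (enc p.1) ++ false :: enc p.2⟩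

theorem enc_pair {α β : Type} [Enc α] [Enc β] (a : α) (b : β) :
    enc (a, b) = dbl (enc a) ++ false :: enc b := rfl

@[simp] theorem sz_pair {α β : Type} [Enc α] [Enc β] (a : α) (b : β) :
    sz (a, b) = 2 * sz a + sz b + 1 := by
  simp [sz, enc_pair]; omega

instance encBool : Enc Bool := ⟨fun b => [b]⟩

@[simp] theorem enc_bool (b : Bool) : enc b = [b] := rfl
@[simp] theorem sz_bool (b : Bool) : sz b = 1 := rfl

/-- Raw bit strings, presented as themselves. -/
structure Raw : Type where
  /-- the underlying string -/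
  val : List Bool

instance encRaw : Enc Raw := ⟨fun x => x.val⟩

@[simp] theorem enc_raw (x : Raw) : enc x = x.val := rfl
@[simp] theorem sz_raw (x : Raw) : sz x = x.val.length := rfl

namespace PT

variable {α β γ : Type} [Enc α] [Enc β] [Enc γ]

theorem pair {f : α → β} {g : α → γ} (hf : PT f) (hg : PT g) : PT (fun a => (f a, g a)) := by
  have hpf := hf.pb
  have hpg := hg.pb
  obtain ⟨τ, _, M, T, hT, h⟩ := hf
  obtain ⟨τ', _, M', T', hT', h'⟩ := hg
  refine ⟨Bool ⊕ (τ ⊕ τ'), inferInstance,
    Mach.copy.seq ((M.rename (emb none Sum.inl)).seq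
      ((M'.rename (emb r2 Sum.inr)).seq Mach.mkPair)),
    fun a => (10 * sz a + 2) + (T a + (T' a + (30 * sz (f a) + 10 * sz (g a) + 15))), ?_,
    fun a => ?_⟩
  · exact (((PB.const 10).mul PB.size).add (PB.const 2)).add (hT.add (hT'.add
      ((((PB.const 30).mul hpf).add ((PB.const 10).mul hpg)).add (PB.const 15))))
  have h1 := runs_emb (τ := τ ⊕ τ') (r := none) (by simp) Sum.inl_injective (h a)
    (st3 (enc a) [] (enc a)) rfl (fun _ => rfl)
  have h2 := runs_emb (τ := τ ⊕ τ') (r := r2) (by simp) Sum.inr_injective (h' a)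
    (st3 (enc (f a)) [] (enc a)) rfl (fun _ => rfl)
  simp only [upd_st3_io, upd_st3_r2] at h1 h2
  rw [st_eq_st3, st_eq_st3]
  exact (Mach.runs_copy _).seq (h1.seq (h2.seq (Mach.runs_mkPair _ _)))

theorem cond {c : α → Bool} {f g : α → β} (hc : PT c) (hf : PT f) (hg : PT g) :
    PT (fun a => bif c a then f a else g a) := by
  obtain ⟨τ, _, M, T, hT, h⟩ := hc
  obtain ⟨τ', _, M', T', hT', h'⟩ := hf
  obtain ⟨τ'', _, M'', T'', hT'', h''⟩ := hg
  refine ⟨Bool ⊕ (τ ⊕ τ' ⊕ τ''), inferInstance,
    Mach.copy.seq ((M.rename (emb r2 Sum.inl)).seq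
      (Mach.case r2 Mach.skip (M'.rename (emb none (Sum.inr ∘ Sum.inl)))
        (M''.rename (emb none (Sum.inr ∘ Sum.inr))))),
    fun a => (10 * sz a + 2) + (T a + ((T' a + T'' a) + 1)), ?_, fun a => ?_⟩
  · exact (((PB.const 10).mul PB.size).add (PB.const 2)).add (hT.add
      ((hT'.add hT'').add (PB.const 1)))
  have h1 := runs_emb (τ := τ ⊕ τ' ⊕ τ'') (r := r2) (by simp) Sum.inl_injective (h a)
    (st3 (enc a) [] (enc a)) rfl (fun _ => rfl)
  have h2 := runs_emb (τ := τ ⊕ τ' ⊕ τ'') (r := none) (by simp)
    (Sum.inr_injective.comp Sum.inl_injective) (h' a) (st3 (enc a) [] []) rfl (fun _ => rfl)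
  have h3 := runs_emb (τ := τ ⊕ τ' ⊕ τ'') (r := none) (by simp)
    (Sum.inr_injective.comp Sum.inr_injective) (h'' a) (st3 (enc a) [] []) rfl (fun _ => rfl)
  simp only [upd_st3_io, upd_st3_r2] at h1 h2 h3
  rw [st_eq_st3, st_eq_st3]
  refine (Mach.runs_copy _).seq (h1.seq ?_)
  cases hca : c a
  · refine Mach.Runs.case_false (x := []) rfl ?_
    rw [upd_st3_r2]; simp only [hca, cond_false]; exact h3.mono (Nat.le_add_left _ _)
  · refine Mach.Runs.case_true (x := []) rfl ?_
    rw [upd_st3_r2]; simp only [hca, cond_true]; exact h2.mono (Nat.le_add_right _ _)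

/-- Bounded iteration: `f` is iterated as many times as the code of `g a` has bits. -/
theorem iterate {f : β → β} {g : α → γ} {h : α → β} (hf : PT f) (hg : PT g) (hh : PT h)
    {B : α → ℕ} (hB : PB B) (hb : ∀ a i, i ≤ sz (g a) → sz (f^[i] (h a)) ≤ B a) :
    PT (fun a => f^[sz (g a)] (h a)) := by
  have hpg := hg.pb
  obtain ⟨τ, _, M, T, hT, hM⟩ := hf
  obtain ⟨τ', _, M', T', hT', hM'⟩ := hg
  obtain ⟨τ'', _, M'', T'', hT'', hM''⟩ := hh
  obtain ⟨k, hk⟩ := hT.exists_mono
  refine ⟨Bool ⊕ (τ ⊕ τ' ⊕ τ''), inferInstance,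
    Mach.copy.seq ((M'.rename (emb r2 (Sum.inr ∘ Sum.inl))).seq
      ((M''.rename (emb none (Sum.inr ∘ Sum.inr))).seq
        (Mach.loop r2 false (M.rename (emb none Sum.inl)) (M.rename (emb none Sum.inl))))),
    fun a => (10 * sz a + 2) + (T' a + (T'' a + (sz (g a) * ((B a + 2) ^ k + 1) + 1))), ?_,
    fun a => ?_⟩
  · exact (((PB.const 10).mul PB.size).add (PB.const 2)).add (hT'.add (hT''.add
      ((hpg.mul (((hB.add (PB.const 2)).pow k).add (PB.const 1))).add (PB.const 1))))
  have h1 := runs_emb (τ := τ ⊕ τ' ⊕ τ'') (r := r2) (by simp)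
    (Sum.inr_injective.comp Sum.inl_injective) (hM' a) (st3 (enc a) [] (enc a)) rfl (fun _ => rfl)
  have h2 := runs_emb (τ := τ ⊕ τ' ⊕ τ'') (r := none) (by simp)
    (Sum.inr_injective.comp Sum.inr_injective) (hM'' a) (st3 (enc a) [] (enc (g a))) rfl
    (fun _ => rfl)
  simp only [upd_st3_io, upd_st3_r2] at h1 h2
  rw [st_eq_st3, st_eq_st3]
  refine (Mach.runs_copy _).seq (h1.seq (h2.seq ?_))
  have key : ∀ (z : List Bool) (b : β), (∀ i, i ≤ z.length → sz (f^[i] b) ≤ B a) →
      (Mach.loop r2 false (M.rename (emb none Sum.inl)) (M.rename (emb none Sum.inl))).Runs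
        (st3 (τ := τ ⊕ τ' ⊕ τ'') (enc b) [] z) (st3 (enc (f^[z.length] b)) [] [])
        (z.length * ((B a + 2) ^ k + 1) + 1) := by
    intro z
    induction z with
    | nil => intro b _; simpa using Mach.Runs.loop_nil rfl
    | cons c z ih =>
      intro b hb
      have h3 := runs_emb (τ := τ ⊕ τ' ⊕ τ'') (r := none) (by simp) Sum.inl_injective (hM b)
        (st3 (enc b) [] z) rfl (fun _ => rfl)
      simp only [upd_st3_io] at h3
      have h4 := ih (f b) (fun i hi => by
        rw [← Function.iterate_succ_apply]; exact hb _ (by simp; omega))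
      have h5 : T b ≤ (B a + 2) ^ k := hk b _ (hb 0 (Nat.zero_le _))
      rw [List.length_cons, Function.iterate_succ_apply]
      cases c
      · refine (Mach.Runs.loop_false (k := r2) (S := st3 (enc b) [] (false :: z)) (x := z) rfl
          (by rw [upd_st3_r2]; exact h3) h4).mono ?_
        rw [Nat.succ_mul]; omega
      · refine (Mach.Runs.loop_true (k := r2) (S := st3 (enc b) [] (true :: z)) (x := z) rfl
          (by rw [upd_st3_r2]; exact h3) h4).mono ?_
        rw [Nat.succ_mul]; omega
  exact key _ _ (hb a)

/-! Primitive operations on raw strings. -/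

theorem fstR : PT (fun x : Raw => (⟨fstL x.val⟩ : Raw)) := by
  refine ⟨Bool ⊕ Unit, inferInstance,
    (Mach.unDbl none r1).seq ((Mach.clear none).seq (Mach.move r1 none r2)),
    fun x => (2 * sz x + 2) + ((sz x + 1) + (5 * sz x + 1)), ?_, fun x => ?_⟩
  · exact (((PB.const 2).mul PB.size).add (PB.const 2)).add ((PB.size.add (PB.const 1)).add
      (((PB.const 5).mul PB.size).add (PB.const 1)))
  have h1 := Mach.runs_unDbl (K := Option (Bool ⊕ Unit)) (k := none) (k1 := r1) (by simp)
    (st3 x.val [] [])
  have h2 := Mach.runs_clear (K := Option (Bool ⊕ Unit)) none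
    (st3 (sndL x.val) (fstL x.val).reverse [])
  have h3 := Mach.runs_move (τ := Unit) (k := r1) (k1 := none) (k2 := r2) (by simp) (by simp)
    (by simp) (st3 [] (fstL x.val).reverse [])
  simp only [st3_io, st3_r1, upd_st3_io, upd_st3_r1, List.append_nil, List.reverse_reverse,
    List.length_reverse] at h1 h2 h3
  have l1 : ∀ y : List Bool, (sndL y).length ≤ y.length ∧ (fstL y).length ≤ y.length := by
    intro y
    induction y using fstL.induct with
    | case1 b y ih => simp [fstL, sndL]; omega
    | case2 y hy =>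
      rcases y with _ | ⟨_ | _, _ | ⟨b, y⟩⟩ <;> simp [fstL, sndL]
      exact (hy _ _ rfl).elim
  rw [st_eq_st3, st_eq_st3]
  have := l1 x.val
  exact (h1.seq (h2.seq h3)).mono (by simp only [sz_raw]; omega)

theorem sndR : PT (fun x : Raw => (⟨sndL x.val⟩ : Raw)) := by
  refine ⟨Bool ⊕ Unit, inferInstance,
    (Mach.unDbl none r1).seq (Mach.clear r1),
    fun x => (2 * sz x + 2) + (sz x + 1), ?_, fun x => ?_⟩
  · exact (((PB.const 2).mul PB.size).add (PB.const 2)).add (PB.size.add (PB.const 1))
  have h1 := Mach.runs_unDbl (K := Option (Bool ⊕ Unit)) (k := none) (k1 := r1) (by simp)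
    (st3 x.val [] [])
  have h2 := Mach.runs_clear (K := Option (Bool ⊕ Unit)) r1
    (st3 (sndL x.val) (fstL x.val).reverse [])
  simp only [st3_io, st3_r1, upd_st3_io, upd_st3_r1, List.append_nil,
    List.length_reverse] at h1 h2
  have l1 : ∀ y : List Bool, (fstL y).length ≤ y.length := by
    intro y
    induction y using fstL.induct with
    | case1 b y ih => simp [fstL]; omega
    | case2 y hy =>
      rcases y with _ | ⟨_ | _, _ | ⟨b, y⟩⟩ <;> simp [fstL]
      exact (hy _ _ rfl).elim
  rw [st_eq_st3, st_eq_st3]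
  have := l1 x.val
  exact (h1.seq h2).mono (by simp only [sz_raw]; omega)

theorem consR (b : Bool) : PT (fun x : Raw => (⟨b :: x.val⟩ : Raw)) := by
  refine ⟨Bool ⊕ Unit, inferInstance, Mach.push none b, fun _ => 1, PB.const 1, fun x => ?_⟩
  have h1 := Mach.runs_push (K := Option (Bool ⊕ Unit)) none b (st3 x.val [] [])
  simp only [st3_io, upd_st3_io] at h1
  rw [st_eq_st3, st_eq_st3]
  exact h1

theorem tailR : PT (fun x : Raw => (⟨x.val.tail⟩ : Raw)) := by
  refine ⟨Bool ⊕ Unit, inferInstance, Mach.case none Mach.skip Mach.skip Mach.skip, fun _ => 1,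
    PB.const 1, fun x => ?_⟩
  rw [st_eq_st3, st_eq_st3]
  obtain ⟨_ | ⟨_ | _, x⟩⟩ := x
  · exact Mach.Runs.case_nil rfl (Mach.runs_skip _)
  · refine Mach.Runs.case_false (x := x) rfl ?_
    rw [upd_st3_io]; exact Mach.runs_skip _
  · refine Mach.Runs.case_true (x := x) rfl ?_
    rw [upd_st3_io]; exact Mach.runs_skip _

/-- Any Boolean function of the first bit (or its absence). -/
theorem headR (u : Option Bool → Bool) : PT (fun x : Raw => u x.val.head?) := by
  refine ⟨Bool ⊕ Unit, inferInstance, Mach.case none (Mach.push none (u none))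
      ((Mach.clear none).seq (Mach.push none (u (some true))))
      ((Mach.clear none).seq (Mach.push none (u (some false)))), fun x => sz x + 2,
    PB.size.add (PB.const 2), fun x => ?_⟩
  rw [st_eq_st3, st_eq_st3]
  have h : ∀ (x : List Bool) (b : Bool), ((Mach.clear none).seq (Mach.push none b)).Runs
      (st3 (τ := Unit) x [] []) (st3 [b] [] []) (x.length + 1 + 1) := by
    intro x b
    have h1 := Mach.runs_clear (K := Option (Bool ⊕ Unit)) none (st3 x [] [])
    have h2 := Mach.runs_push (K := Option (Bool ⊕ Unit)) none b (st3 [] [] [])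
    simp only [st3_io, upd_st3_io] at h1 h2
    exact h1.seq h2
  obtain ⟨_ | ⟨_ | _, x⟩⟩ := x
  · have h2 := Mach.runs_push (K := Option (Bool ⊕ Unit)) none (u none) (st3 [] [] [])
    simp only [st3_io, upd_st3_io] at h2
    exact Mach.Runs.case_nil rfl h2
  · refine Mach.Runs.case_false (x := x) rfl ?_
    rw [upd_st3_io]; exact h _ _
  · refine Mach.Runs.case_true (x := x) rfl ?_
    rw [upd_st3_io]; exact h _ _

end PT

end Crest.Agent.PT
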