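import Crest.Agent.PT.Core

/-!
Derived polynomial-time operations: projections, Boolean operations, unary natural numbers,
folds over ranges, concatenation of raw strings.
-/

set_option autoImplicit false
set_option linter.dupNamespace false

namespace Crest.Agent.PT

attribute [fun_prop] PT
attribute [fun_prop] PT.id' PT.const PT.comp PT.pair PT.cond

namespace PT

variable {α β γ : Type} [Enc α] [Enc β] [Enc γ]

theorem toRaw : PT (fun a : α => (⟨enc a⟩ : Raw)) := reinterp (fun _ => rfl)

/-- A function is polynomial-time if a polynomial-time map of raw strings realises it. -/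
theorem ofRaw {f : α → β} {g : Raw → Raw} (hg : PT g) (H : ∀ a, (g ⟨enc a⟩).val = enc (f a)) :
    PT f := (hg.comp toRaw).of_enc_eq H

@[fun_prop] theorem fst {f : α → β × γ} (hf : PT f) : PT (fun a => (f a).1) :=
  (ofRaw (f := fun p : β × γ => p.1) fstR (fun _ => fstL_pair _ _)).comp hf

@[fun_prop] theorem snd {f : α → β × γ} (hf : PT f) : PT (fun a => (f a).2) :=
  (ofRaw (f := fun p : β × γ => p.2) sndR (fun _ => sndL_pair _ _)).comp hf

theorem ite {p : α → Prop} [DecidablePred p] {f g : α → β} (hp : PT (fun a => decide (p a)))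
    (hf : PT f) (hg : PT g) : PT (fun a => if p a then f a else g a) :=
  (cond hp hf hg).congr (fun a => by by_cases h : p a <;> simp [h])

@[fun_prop] theorem not {f : α → Bool} (hf : PT f) : PT (fun a => !f a) :=
  (cond hf (const false) (const true)).congr (fun a => by cases f a <;> rfl)

@[fun_prop] theorem and {f g : α → Bool} (hf : PT f) (hg : PT g) : PT (fun a => f a && g a) :=
  (cond hf hg (const false)).congr (fun a => by cases f a <;> rfl)

@[fun_prop] theorem or {f g : α → Bool} (hf : PT f) (hg : PT g) : PT (fun a => f a || g a) :=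
  (cond hf (const true) hg).congr (fun a => by cases f a <;> rfl)

@[fun_prop] theorem xor {f g : α → Bool} (hf : PT f) (hg : PT g) : PT (fun a => xor (f a) (g a)) :=
  (cond hf (not hg) hg).congr (fun a => by cases f a <;> cases g a <;> rfl)

end PT

/-- `cons` on raw strings. -/
def Raw.cons (b : Bool) (x : Raw) : Raw := ⟨b :: x.val⟩
/-- `tail` on raw strings. -/
def Raw.tail (x : Raw) : Raw := ⟨x.val.tail⟩
/-- first bit (`false` if there is none). -/
def Raw.head (x : Raw) : Bool := x.val.headD false
/-- emptiness test. -/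
def Raw.isNil (x : Raw) : Bool := x.val.isEmpty
/-- the empty string. -/
def Raw.nil : Raw := ⟨[]⟩
/-- concatenation. -/
def Raw.app (x y : Raw) : Raw := ⟨x.val ++ y.val⟩
/-- reversed first string in front of the second. -/
def Raw.revApp (x y : Raw) : Raw := ⟨x.val.reverse ++ y.val⟩

@[simp] theorem Raw.val_cons (b : Bool) (x : Raw) : (Raw.cons b x).val = b :: x.val := rfl
@[simp] theorem Raw.val_tail (x : Raw) : x.tail.val = x.val.tail := rfl
@[simp] theorem Raw.val_nil : Raw.nil.val = [] := rfl
@[simp] theorem Raw.val_app (x y : Raw) : (x.app y).val = x.val ++ y.val := rfl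
@[simp] theorem Raw.val_revApp (x y : Raw) : (x.revApp y).val = x.val.reverse ++ y.val := rfl

/-- Natural numbers are presented in unary. -/
instance encNat : Enc ℕ := ⟨fun n => List.replicate n true⟩

theorem enc_nat (n : ℕ) : enc n = List.replicate n true := rfl
@[simp] theorem sz_nat (n : ℕ) : sz n = n := by simp [sz, enc_nat]

namespace PT

variable {α β γ : Type} [Enc α] [Enc β] [Enc γ]

@[fun_prop] theorem cons {b : α → Bool} {f : α → Raw} (hb : PT b) (hf : PT f) :
    PT (fun a => Raw.cons (b a) (f a)) :=
  (cond hb ((consR true).comp hf) ((consR false).comp hf)).congr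
    (fun a => by cases b a <;> rfl)

@[fun_prop] theorem tail {f : α → Raw} (hf : PT f) : PT (fun a => (f a).tail) := tailR.comp hf

@[fun_prop] theorem head {f : α → Raw} (hf : PT f) : PT (fun a => (f a).head) :=
  ((headR (fun o => o.getD false)).comp hf).congr (fun a => by
    rcases f a with ⟨_ | ⟨b, x⟩⟩ <;> rfl)

@[fun_prop] theorem isNil {f : α → Raw} (hf : PT f) : PT (fun a => (f a).isNil) :=
  ((headR (fun o => o.isNone)).comp hf).congr (fun a => by
    rcases f a with ⟨_ | ⟨b, x⟩⟩ <;> rfl)

/-- Iteration a unary number of times. -/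
theorem iter {f : β → β} {g : α → ℕ} {h : α → β} (hf : PT f) (hg : PT g) (hh : PT h)
    {B : α → ℕ} (hB : PB B) (hb : ∀ a i, i ≤ g a → sz (f^[i] (h a)) ≤ B a) :
    PT (fun a => f^[g a] (h a)) :=
  (iterate hf hg hh hB (fun a i hi => hb a i (by simpa using hi))).congr (fun a => by simp)

theorem pbNat {g : α → ℕ} (hg : PT g) : PB g := hg.pb.of_le (fun a => by simp)

@[fun_prop] theorem succ {f : α → ℕ} (hf : PT f) : PT (fun a => (f a).succ) :=
  (ofRaw (f := fun n : ℕ => n.succ) (consR true) (fun _ => rfl)).comp hf

@[fun_prop] theorem pred {f : α → ℕ} (hf : PT f) : PT (fun a => (f a).pred) :=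
  (ofRaw (f := fun n : ℕ => n.pred) tailR (fun n => by cases n <;> simp [enc_nat])).comp hf

theorem isZero {f : α → ℕ} (hf : PT f) : PT (fun a => decide (f a = 0)) :=
  ((isNil (toRaw (α := ℕ))).comp hf).congr (fun a => by
    cases f a <;> simp [Raw.isNil, enc_nat, List.replicate_succ])

/-- Primitive recursion over a unary counter with a parameter, given a size bound. -/
theorem natRec {g : α → ℕ} {z : α → β} {s : α → ℕ → β → β} (hg : PT g) (hz : PT z)
    (hs : PT (fun p : α × ℕ × β => s p.1 p.2.1 p.2.2)) {B : α → ℕ} (hB : PB B)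
    (hb : ∀ a i, i ≤ g a → sz (Nat.rec (z a) (s a) i : β) ≤ B a) :
    PT (fun a => (Nat.rec (z a) (s a) (g a) : β)) := by
  let F : α × ℕ × β → α × ℕ × β := fun p => (p.1, p.2.1.succ, s p.1 p.2.1 p.2.2)
  have hF : PT F := by fun_prop
  have key : ∀ a i, F^[i] (a, 0, z a) = (a, i, (Nat.rec (z a) (s a) i : β)) := by
    intro a i
    induction i with
    | zero => rfl
    | succ i ih => rw [Function.iterate_succ_apply', ih]
  have h := iter (h := fun a => (a, 0, z a)) hF hg (by fun_prop)
    (B := fun a => 2 * sz a + (2 * g a + B a + 1) + 1)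
    ((((PB.const 2).mul PB.size).add ((((PB.const 2).mul hg.pbNat).add hB).add (PB.const 1))).add
      (PB.const 1)) (fun a i hi => by
        rw [key]
        have := hb a i hi
        simp only [sz_pair, sz_nat]
        omega)
  exact h.snd.snd.congr (fun a => by rw [key])

/-- Primitive recursion where every step adds a polynomially bounded amount of size. -/
theorem natRec_add {g : α → ℕ} {z : α → β} {s : α → ℕ → β → β} (hg : PT g) (hz : PT z)
    (hs : PT (fun p : α × ℕ × β => s p.1 p.2.1 p.2.2)) {C : α × ℕ → ℕ} (hC : PB C)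
    (hb : ∀ a i b, sz (s a i b) ≤ sz b + C (a, i)) :
    PT (fun a => (Nat.rec (z a) (s a) (g a) : β)) := by
  obtain ⟨k, hk⟩ := hC.exists_mono
  refine natRec hg hz hs (B := fun a => sz (z a) + g a * (2 * sz a + g a + 1 + 2) ^ k)
    (hz.pb.add (hg.pbNat.mul ((((((PB.const 2).mul PB.size).add hg.pbNat).add (PB.const 1)).add
      (PB.const 2)).pow k))) (fun a i hi => ?_)
  have : ∀ j, j ≤ g a → sz (Nat.rec (z a) (s a) j : β) ≤
      sz (z a) + j * (2 * sz a + g a + 1 + 2) ^ k := by
    intro j
    induction j with
    | zero => intro _; simp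
    | succ j ih =>
      intro hj
      have h1 := ih (by omega)
      have h2 := hb a j (Nat.rec (z a) (s a) j : β)
      have h3 := hk (a, j) (2 * sz a + g a + 1) (by simp only [sz_pair, sz_nat]; omega)
      show sz (s a j _) ≤ _
      rw [Nat.succ_mul]
      omega
  exact (this i hi).trans (Nat.add_le_add_left (Nat.mul_le_mul_right _ hi) _)

@[fun_prop] theorem len {f : α → β} (hf : PT f) : PT (fun a => sz (f a)) := by
  have key : ∀ i : ℕ, Nat.succ^[i] 0 = i := fun i => by
    induction i with
    | zero => rfl
    | succ i ih => rw [Function.iterate_succ_apply', ih]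
  exact (iterate (succ id') hf (const 0) hf.pb (fun a i hi => by rw [key]; simpa using hi)).congr
    (fun a => key _)

@[fun_prop] theorem add {f g : α → ℕ} (hf : PT f) (hg : PT g) : PT (fun a => f a + g a) := by
  refine (natRec_add (s := fun _ _ b => Nat.succ b) hg hf (by fun_prop) (PB.const 1)
    (fun a i b => by simp)).congr (fun a => ?_)
  induction g a with
  | zero => rfl
  | succ n ih => simp only [ih]; rfl

@[fun_prop] theorem sub {f g : α → ℕ} (hf : PT f) (hg : PT g) : PT (fun a => f a - g a) := by
  refine (natRec_add (s := fun _ _ b => Nat.pred b) hg hf (by fun_prop) (PB.const 0)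
    (fun a i b => by simp)).congr (fun a => ?_)
  induction g a with
  | zero => rfl
  | succ n ih => simp only [ih]; rfl

@[fun_prop] theorem mul {f g : α → ℕ} (hf : PT f) (hg : PT g) : PT (fun a => f a * g a) := by
  refine (natRec_add (s := fun a _ b => b + f a) hg (const 0) (by fun_prop)
    (C := fun p => f p.1) (pbNat (by fun_prop)) (fun a i b => by simp)).congr (fun a => ?_)
  induction g a with
  | zero => rfl
  | succ n ih => simp only [ih]; rfl

@[fun_prop] theorem pow {f : α → ℕ} (hf : PT f) (n : ℕ) : PT (fun a => f a ^ n) := by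
  induction n with
  | zero => exact (const 1).congr (fun a => by simp)
  | succ n ih => exact (ih.mul hf).congr (fun a => by rw [pow_succ])

theorem le {f g : α → ℕ} (hf : PT f) (hg : PT g) : PT (fun a => decide (f a ≤ g a)) :=
  (isZero (hf.sub hg)).congr (fun a => by simp [Nat.sub_eq_zero_iff_le])

theorem lt {f g : α → ℕ} (hf : PT f) (hg : PT g) : PT (fun a => decide (f a < g a)) :=
  (le hf.succ hg).congr (fun a => by simp)

theorem eq {f g : α → ℕ} (hf : PT f) (hg : PT g) : PT (fun a => decide (f a = g a)) :=
  ((le hf hg).and (le hg hf)).congr (fun a => by simp [le_antisymm_iff])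

@[fun_prop] theorem ite_le {f g : α → ℕ} {u v : α → β} (hf : PT f) (hg : PT g) (hu : PT u)
    (hv : PT v) : PT (fun a => if f a ≤ g a then u a else v a) := ite (le hf hg) hu hv

@[fun_prop] theorem ite_lt {f g : α → ℕ} {u v : α → β} (hf : PT f) (hg : PT g) (hu : PT u)
    (hv : PT v) : PT (fun a => if f a < g a then u a else v a) := ite (lt hf hg) hu hv

@[fun_prop] theorem ite_eq {f g : α → ℕ} {u v : α → β} (hf : PT f) (hg : PT g) (hu : PT u)
    (hv : PT v) : PT (fun a => if f a = g a then u a else v a) := ite (eq hf hg) hu hv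

@[fun_prop] theorem mod {f g : α → ℕ} (hf : PT f) (hg : PT g) : PT (fun a => f a % g a) := by
  refine (natRec_add (s := fun a _ b => if b + 1 = g a then 0 else b + 1) hf (const 0)
    (by fun_prop) (PB.const 1) (fun a i b => by split_ifs <;> simp)).congr (fun a => ?_)
  induction f a with
  | zero => simp
  | succ n ih =>
    simp only [ih]
    rcases Nat.eq_zero_or_pos (g a) with h | h
    · simp [h]
    · have h1 := Nat.mod_lt n h
      split_ifs with h2
      · rw [← Nat.mod_add_mod, h2, Nat.mod_self]
      · rw [← Nat.mod_add_mod n, Nat.mod_eq_of_lt (a := n % g a + 1) (by omega)]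

@[fun_prop] theorem div {f g : α → ℕ} (hf : PT f) (hg : PT g) : PT (fun a => f a / g a) := by
  refine (natRec_add (s := fun a i b => if (i + 1) % g a = 0 then b + 1 else b) hf (const 0)
    (by fun_prop) (PB.const 1) (fun a i b => by split_ifs <;> simp)).congr (fun a => ?_)
  induction f a with
  | zero => simp
  | succ n ih =>
    simp only [ih, Nat.succ_div, Nat.dvd_iff_mod_eq_zero]
    split_ifs <;> simp

@[fun_prop] theorem min {f g : α → ℕ} (hf : PT f) (hg : PT g) : PT (fun a => min (f a) (g a)) :=
  (ite_le hf hg hf hg).congr (fun a => by rw [min_def])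

@[fun_prop] theorem max {f g : α → ℕ} (hf : PT f) (hg : PT g) : PT (fun a => max (f a) (g a)) :=
  (ite_le hf hg hg hf).congr (fun a => by rw [max_def])

@[fun_prop] theorem revApp {f g : α → Raw} (hf : PT f) (hg : PT g) :
    PT (fun a => (f a).revApp (g a)) := by
  let F : Raw × Raw → Raw × Raw := fun p => (p.1.tail, Raw.cons p.1.head p.2)
  have hF : PT F := by fun_prop
  have key : ∀ (x y : List Bool) (i : ℕ), i ≤ x.length →
      F^[i] (⟨x⟩, ⟨y⟩) = (⟨x.drop i⟩, ⟨(x.take i).reverse ++ y⟩) := by
    intro x y i
    induction i generalizing x y with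
    | zero => intro _; simp
    | succ i ih =>
      intro hi
      rcases x with _ | ⟨b, x⟩
      · simp at hi
      · rw [Function.iterate_succ_apply]
        have : F (⟨b :: x⟩, ⟨y⟩) = (⟨x⟩, ⟨b :: y⟩) := rfl
        rw [this, ih x (b :: y) (by simpa using hi)]
        simp
  have h := iterate (h := fun a => (f a, g a)) hF hf (by fun_prop)
    (B := fun a => 3 * sz (f a) + sz (g a) + 1)
    ((((PB.const 3).mul hf.pb).add hg.pb).add (PB.const 1)) (fun a i hi => by
      have := key (f a).val (g a).val i hi
      rw [this]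
      simp only [sz_pair, sz_raw, List.length_drop, List.length_append, List.length_reverse,
        List.length_take]
      omega)
  refine h.snd.congr (fun a => ?_)
  have := key (f a).val (g a).val (sz (f a)) le_rfl
  rw [this]
  simp [Raw.revApp]

@[fun_prop] theorem app {f g : α → Raw} (hf : PT f) (hg : PT g) :
    PT (fun a => (f a).app (g a)) :=
  (revApp (revApp hf (const Raw.nil)) hg).congr (fun a => by simp [Raw.revApp, Raw.app])

end PT

/-- Concatenation of the strings `f 0, …, f (n-1)`. -/
def Raw.concat (n : ℕ) (f : ℕ → Raw) : Raw := ⟨(List.range n).flatMap (fun i => (f i).val)⟩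

@[simp] theorem Raw.val_concat (n : ℕ) (f : ℕ → Raw) :
    (Raw.concat n f).val = (List.range n).flatMap (fun i => (f i).val) := rfl

namespace PT

variable {α β γ : Type} [Enc α] [Enc β] [Enc γ]

@[fun_prop] theorem concat {g : α → ℕ} {f : α → ℕ → Raw} (hg : PT g)
    (hf : PT (fun p : α × ℕ => f p.1 p.2)) : PT (fun a => Raw.concat (g a) (f a)) := by
  have hf' : PT (fun p : α × ℕ × Raw => f p.1 p.2.1) :=
    hf.comp (f := fun p : α × ℕ × Raw => (p.1, p.2.1)) (by fun_prop)
  refine (natRec_add (s := fun a i b => b.app (f a i)) hg (const Raw.nil)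
    (by fun_prop) hf.pb (fun a i b => by simp)).congr (fun a => ?_)
  induction g a with
  | zero => rfl
  | succ n ih => simp only [ih]; simp [Raw.concat, Raw.app, List.range_succ]

@[fun_prop] theorem sumNat {g : α → ℕ} {f : α → ℕ → ℕ} (hg : PT g)
    (hf : PT (fun p : α × ℕ => f p.1 p.2)) :
    PT (fun a => ∑ i ∈ Finset.range (g a), f a i) := by
  have hf' : PT (fun p : α × ℕ × ℕ => f p.1 p.2.1) :=
    hf.comp (f := fun p : α × ℕ × ℕ => (p.1, p.2.1)) (by fun_prop)
  refine (natRec_add (s := fun a i b => b + f a i) hg (const 0)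
    (by fun_prop) hf.pb (fun a i b => by simp)).congr (fun a => ?_)
  induction g a with
  | zero => rfl
  | succ n ih => simp only [ih, Finset.sum_range_succ]

/-- Number of leading `true` bits. -/
def leadOnes : List Bool → ℕ
  | true :: x => leadOnes x + 1
  | _ => 0

/-- Drop the leading `true` bits and one more bit. -/
def dropOnes : List Bool → List Bool
  | true :: x => dropOnes x
  | x => x.tail

theorem leadOnes_dropOnes :
    PT (fun x : Raw => (leadOnes x.val, (⟨dropOnes x.val⟩ : Raw))) := by
  let F : ℕ × Raw → ℕ × Raw := fun p => bif p.2.head then (p.1.succ, p.2.tail) else p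
  have hF : PT F := by fun_prop
  have key : ∀ (x : List Bool) (c i : ℕ),
      sz (F^[i] (c, ⟨x⟩)) ≤ 2 * (c + i) + x.length + 1 ∧
      (x.length ≤ i → (F^[i] (c, ⟨x⟩)).1 = c + leadOnes x ∧
        (F^[i] (c, ⟨x⟩)).2.val.tail = dropOnes x) := by
    intro x c i
    induction i generalizing x c with
    | zero =>
      refine ⟨by simp, fun h => ?_⟩
      have : x = [] := by simpa using h
      subst this; simp [leadOnes, dropOnes]
    | succ i ih =>
      rw [Function.iterate_succ_apply]
      rcases x with _ | ⟨_ | _, x⟩
      · have : F (c, ⟨[]⟩) = (c, ⟨[]⟩) := rfl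
        rw [this]
        have := ih [] c
        exact ⟨by omega, fun _ => this.2 (Nat.zero_le _)⟩
      · have : F (c, ⟨false :: x⟩) = (c, ⟨false :: x⟩) := rfl
        rw [this, Function.iterate_fixed this]
        simp [leadOnes, dropOnes]
      · have : F (c, ⟨true :: x⟩) = (c + 1, ⟨x⟩) := rfl
        rw [this]
        have := ih x (c + 1)
        refine ⟨by simp only [List.length_cons]; omega, fun h => ?_⟩
        have := this.2 (by simpa using h)
        simp only [leadOnes, dropOnes]
        exact ⟨by omega, this.2⟩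
  have h := iterate (g := fun x : Raw => x) (h := fun x : Raw => ((0 : ℕ), x)) hF id'
    (by fun_prop) (B := fun x => 3 * sz x + 1) (((PB.const 3).mul PB.size).add (PB.const 1))
    (fun x i hi => by
      have := (key x.val 0 i).1
      simp only [sz_raw] at hi ⊢
      exact this.trans (by omega))
  refine (h.fst.pair h.snd.tail).congr (fun x => ?_)
  have := (key x.val 0 (sz x)).2 le_rfl
  refine Prod.ext ?_ ?_
  · simpa using this.1
  · exact congrArg Raw.mk this.2

@[simp] theorem leadOnes_replicate (n : ℕ) (y : List Bool) :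
    leadOnes (List.replicate n true ++ false :: y) = n := by
  induction n with
  | zero => rfl
  | succ n ih => simp [List.replicate_succ, leadOnes, ih]

@[simp] theorem leadOnes_replicate' (n : ℕ) : leadOnes (List.replicate n true) = n := by
  induction n with
  | zero => rfl
  | succ n ih => simp [List.replicate_succ, leadOnes, ih]

@[simp] theorem dropOnes_replicate (n : ℕ) (y : List Bool) :
    dropOnes (List.replicate n true ++ false :: y) = y := by
  induction n with
  | zero => rfl
  | succ n ih => simp [List.replicate_succ, dropOnes, ih]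

/-- From the framework to the frozen predicate. -/
theorem polyTime {f : Raw → Raw} (hf : PT f) :
    Crest.Complexity.PolyTime (fun x => (f ⟨x⟩).val) := by
  obtain ⟨τ, _, M, T, ⟨k, hk⟩, h⟩ := hf
  refine polyTimeComputable_of_runs _ _ _ M ((Polynomial.X + 2) ^ k) (fun x => ?_)
  refine (h ⟨x⟩).mono ?_
  simpa [sz, Computability.encodingList] using hk ⟨x⟩

/-- From the framework to the frozen predicate for tests. -/
theorem polyTimePred {f : Raw → Bool} (hf : PT f) :
    Crest.Complexity.PolyTimePred (fun x => f ⟨x⟩) := by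
  obtain ⟨τ, _, M, T, ⟨k, hk⟩, h⟩ := hf
  refine polyTimeComputable_of_runs _ _ _ M ((Polynomial.X + 2) ^ k) (fun x => ?_)
  refine (h ⟨x⟩).mono ?_
  simpa [sz, Computability.encodingList] using hk ⟨x⟩

end PT

end Crest.Agent.PT
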