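import Mathlib
import Crest.Prelude.Def_Complexity

/-!
Flat register machines over bit stacks, with structured combinators, and their translation to
the library's bundled stack machines.
-/

set_option autoImplicit false

namespace Crest.Agent.PT

open Classical in
/-- Update of a store at one register. -/
noncomputable def upd {K : Type} (S : K → List Bool) (k : K) (v : List Bool) : K → List Bool :=
  fun j => if j = k then v else S j

@[simp] theorem upd_same {K : Type} (S : K → List Bool) (k : K) (v : List Bool) :
    upd S k v k = v := by simp [upd]

theorem upd_ne {K : Type} (S : K → List Bool) {k j : K} (v : List Bool) (h : j ≠ k) :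
    upd S k v j = S j := by simp [upd, h]

@[simp] theorem upd_upd {K : Type} (S : K → List Bool) (k : K) (v w : List Bool) :
    upd (upd S k v) k w = upd S k w := by
  funext j; by_cases h : j = k <;> simp [upd, h]

@[simp] theorem upd_self {K : Type} (S : K → List Bool) (k : K) : upd S k (S k) = S := by
  funext j; by_cases h : j = k <;> simp [upd, h]

theorem upd_comm {K : Type} (S : K → List Bool) {k j : K} (h : k ≠ j) (v w : List Bool) :
    upd (upd S k v) j w = upd (upd S j w) k v := by
  funext i
  by_cases h1 : i = k <;> by_cases h2 : i = j <;> simp_all [upd]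

theorem upd_eq_update {K : Type} [DecidableEq K] (S : K → List Bool) (k : K) (v : List Bool) :
    upd S k v = Function.update S k v := by
  funext j; by_cases h : j = k
  · subst h; simp
  · simp [upd, h]

/-- One instruction: push a bit, or pop a bit and branch on it. -/
inductive Instr (K L : Type) : Type
  | push : K → Bool → L → Instr K L
  | pop : K → (Option Bool → L) → Instr K L

/-- Relabel the jump targets. -/
def Instr.mapL {K L L' : Type} (φ : L → L') : Instr K L → Instr K L'
  | .push k b n => .push k b (φ n)
  | .pop k n => .pop k (fun o => φ (n o))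

/-- Rename the registers. -/
def Instr.mapK {K K' L : Type} (ι : K → K') : Instr K L → Instr K' L
  | .push k b n => .push (ι k) b n
  | .pop k n => .pop (ι k) n

/-- Execute one instruction. -/
noncomputable def Instr.exec {K L : Type} : Instr K L → (K → List Bool) → L × (K → List Bool)
  | .push k b n, S => (n, upd S k (b :: S k))
  | .pop k n, S => (n (S k).head?, upd S k (S k).tail)

theorem Instr.exec_mapL {K L L' : Type} (φ : L → L') (i : Instr K L) (S : K → List Bool) :
    (i.mapL φ).exec S = (φ (i.exec S).1, (i.exec S).2) := by
  cases i <;> rfl

/-- A machine: finitely many labels, an entry point (`none` = exit at once) and a program. -/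
structure Mach (K : Type) : Type 1 where
  /-- labels -/
  L : Type
  /-- finitely many labels -/
  fin : Finite L
  /-- entry label -/
  entry : Option L
  /-- program -/
  prog : L → Instr K (Option L)

namespace Mach

variable {K : Type}

/-- One step; an exited configuration stays. -/
noncomputable def step (M : Mach K) : Option M.L × (K → List Bool) → Option M.L × (K → List Bool)
  | (none, S) => (none, S)
  | (some l, S) => (M.prog l).exec S

/-- Reachability within `t` steps. -/
def Reach (M : Mach K) (c c' : Option M.L × (K → List Bool)) (t : ℕ) : Prop :=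
  ∃ t' ≤ t, M.step^[t'] c = c'

theorem Reach.refl (M : Mach K) (c : Option M.L × (K → List Bool)) : M.Reach c c 0 :=
  ⟨0, le_rfl, rfl⟩

theorem Reach.trans {M : Mach K} {c c' c'' : Option M.L × (K → List Bool)} {t t' : ℕ}
    (h : M.Reach c c' t) (h' : M.Reach c' c'' t') : M.Reach c c'' (t + t') := by
  obtain ⟨a, ha, rfl⟩ := h
  obtain ⟨b, hb, rfl⟩ := h'
  exact ⟨b + a, by omega, by rw [Function.iterate_add_apply]⟩

theorem Reach.mono {M : Mach K} {c c' : Option M.L × (K → List Bool)} {t t' : ℕ}
    (h : M.Reach c c' t) (ht : t ≤ t') : M.Reach c c' t' := by
  obtain ⟨a, ha, h⟩ := h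
  exact ⟨a, ha.trans ht, h⟩

theorem Reach.one (M : Mach K) (c : Option M.L × (K → List Bool)) : M.Reach c (M.step c) 1 :=
  ⟨1, le_rfl, rfl⟩

/-- `M` started on the store `S` exits with the store `T` within `t` steps. -/
def Runs (M : Mach K) (S T : K → List Bool) (t : ℕ) : Prop :=
  M.Reach (M.entry, S) (none, T) t

theorem Runs.mono {M : Mach K} {S T : K → List Bool} {t t' : ℕ} (h : M.Runs S T t)
    (ht : t ≤ t') : M.Runs S T t' := Reach.mono h ht

theorem iter_none (M : Mach K) (S : K → List Bool) (t : ℕ) :
    M.step^[t] (none, S) = (none, S) := by
  induction t with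
  | zero => rfl
  | succ t ih => rw [Function.iterate_succ_apply]; exact ih

/-- Simulation of a sub-machine inside a larger machine. -/
theorem sim (M N : Mach K) (ι : M.L → N.L) (e : Option N.L)
    (h : ∀ l, N.prog (ι l) = (M.prog l).mapL (fun o => o.elim e (fun l => some (ι l))))
    (t : ℕ) (l : Option M.L) (S T : K → List Bool) (hr : M.Reach (l, S) (none, T) t) :
    N.Reach (l.elim e (fun l => some (ι l)), S) (e, T) t := by
  obtain ⟨t', ht', hr⟩ := hr
  refine Reach.mono ?_ ht'
  clear ht'
  induction t' generalizing l S with
  | zero =>
    simp only [Function.iterate_zero, id_eq, Prod.mk.injEq] at hr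
    obtain ⟨rfl, rfl⟩ := hr
    exact Reach.refl _ _
  | succ t' ih =>
    cases l with
    | none =>
      rw [iter_none] at hr
      simp only [Prod.mk.injEq, true_and] at hr
      subst hr
      exact (Reach.refl _ _).mono (Nat.zero_le _)
    | some l =>
      rw [Function.iterate_succ_apply] at hr
      have h1 : N.step (some (ι l), S) =
          (((M.prog l).exec S).1.elim e (fun l => some (ι l)), ((M.prog l).exec S).2) := by
        show (N.prog (ι l)).exec S = _
        rw [h, Instr.exec_mapL]
      have h2 := ih ((M.prog l).exec S).1 ((M.prog l).exec S).2 hr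
      have h3 := Reach.one N (some (ι l), S)
      rw [h1] at h3
      have := h3.trans h2
      rw [Nat.add_comm] at this
      exact this

/-- Do nothing. -/
def skip : Mach K where
  L := Empty
  fin := inferInstance
  entry := none
  prog := fun l => l.elim

theorem runs_skip (S : K → List Bool) : (skip : Mach K).Runs S S 0 := Reach.refl _ _

/-- Push one bit. -/
def push (k : K) (b : Bool) : Mach K where
  L := Unit
  fin := inferInstance
  entry := some ()
  prog := fun _ => .push k b none

theorem runs_push (k : K) (b : Bool) (S : K → List Bool) :
    (push k b).Runs S (upd S k (b :: S k)) 1 := Reach.one (push k b) (some (), S)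

/-- Sequential composition. -/
def seq (M N : Mach K) : Mach K where
  L := M.L ⊕ N.L
  fin := by have := M.fin; have := N.fin; infer_instance
  entry := M.entry.elim (N.entry.elim none (fun l => some (Sum.inr l))) (fun l => some (Sum.inl l))
  prog := fun l => match l with
    | Sum.inl l => (M.prog l).mapL (fun o => o.elim (N.entry.elim none (fun l => some (Sum.inr l)))
        (fun l => some (Sum.inl l)))
    | Sum.inr l => (N.prog l).mapL (fun o => o.elim none (fun l => some (Sum.inr l)))

theorem Runs.seq {M N : Mach K} {S T U : K → List Bool} {t t' : ℕ} (h : M.Runs S T t)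
    (h' : N.Runs T U t') : (seq M N).Runs S U (t + t') := by
  have h1 := sim M (Mach.seq M N) Sum.inl _ (fun l => rfl) t _ S T h
  have h2 := sim N (Mach.seq M N) Sum.inr none (fun l => rfl) t' _ T U h'
  exact h1.trans h2

/-- Pop a bit and branch: empty, `true`, `false`. -/
def case (k : K) (M0 MT MF : Mach K) : Mach K where
  L := Option (M0.L ⊕ MT.L ⊕ MF.L)
  fin := by have := M0.fin; have := MT.fin; have := MF.fin; infer_instance
  entry := some none
  prog := fun l => match l with
    | none => .pop k (fun o => match o with
        | none => M0.entry.elim none (fun l => some (some (Sum.inl l)))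
        | some true => MT.entry.elim none (fun l => some (some (Sum.inr (Sum.inl l))))
        | some false => MF.entry.elim none (fun l => some (some (Sum.inr (Sum.inr l)))))
    | some (Sum.inl l) => (M0.prog l).mapL (fun o => o.elim none (fun l => some (some (Sum.inl l))))
    | some (Sum.inr (Sum.inl l)) =>
        (MT.prog l).mapL (fun o => o.elim none (fun l => some (some (Sum.inr (Sum.inl l)))))
    | some (Sum.inr (Sum.inr l)) =>
        (MF.prog l).mapL (fun o => o.elim none (fun l => some (some (Sum.inr (Sum.inr l)))))

theorem Runs.case_nil {k : K} {M0 MT MF : Mach K} {S T : K → List Bool} {t : ℕ} (hS : S k = [])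
    (h : M0.Runs S T t) : (case k M0 MT MF).Runs S T (t + 1) := by
  have h1 := sim M0 (case k M0 MT MF) (fun l => some (Sum.inl l)) none (fun l => rfl) t _ S T h
  have h0 := Reach.one (case k M0 MT MF) (some none, S)
  have e : (case k M0 MT MF).step (some none, S) =
      (M0.entry.elim none (fun l => some (some (Sum.inl l))), S) := by
    show Instr.exec ((case k M0 MT MF).prog none) S = _
    simp only [case, Instr.exec, hS, List.head?_nil, List.tail_nil]
    rw [← hS, upd_self]
  rw [e] at h0
  have := h0.trans h1
  rw [Nat.add_comm] at this
  exact this

theorem Runs.case_true {k : K} {M0 MT MF : Mach K} {S T : K → List Bool} {x : List Bool} {t : ℕ}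
    (hS : S k = true :: x) (h : MT.Runs (upd S k x) T t) : (case k M0 MT MF).Runs S T (t + 1) := by
  have h1 := sim MT (case k M0 MT MF) (fun l => some (Sum.inr (Sum.inl l))) none (fun l => rfl)
    t _ _ T h
  have h0 := Reach.one (case k M0 MT MF) (some none, S)
  have e : (case k M0 MT MF).step (some none, S) =
      (MT.entry.elim none (fun l => some (some (Sum.inr (Sum.inl l)))), upd S k x) := by
    show Instr.exec ((case k M0 MT MF).prog none) S = _
    simp only [case, Instr.exec, hS, List.head?_cons, List.tail_cons]
  rw [e] at h0
  have := h0.trans h1
  rw [Nat.add_comm] at this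
  exact this

theorem Runs.case_false {k : K} {M0 MT MF : Mach K} {S T : K → List Bool} {x : List Bool} {t : ℕ}
    (hS : S k = false :: x) (h : MF.Runs (upd S k x) T t) : (case k M0 MT MF).Runs S T (t + 1) := by
  have h1 := sim MF (case k M0 MT MF) (fun l => some (Sum.inr (Sum.inr l))) none (fun l => rfl)
    t _ _ T h
  have h0 := Reach.one (case k M0 MT MF) (some none, S)
  have e : (case k M0 MT MF).step (some none, S) =
      (MF.entry.elim none (fun l => some (some (Sum.inr (Sum.inr l)))), upd S k x) := by
    show Instr.exec ((case k M0 MT MF).prog none) S = _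
    simp only [case, Instr.exec, hS, List.head?_cons, List.tail_cons]
  rw [e] at h0
  have := h0.trans h1
  rw [Nat.add_comm] at this
  exact this

/-- Loop: pop a bit; exit if empty (or if `false` and `stop`); otherwise run the body for the bit
and repeat. -/
def loop (k : K) (stop : Bool) (MT MF : Mach K) : Mach K where
  L := Option (MT.L ⊕ MF.L)
  fin := by have := MT.fin; have := MF.fin; infer_instance
  entry := some none
  prog := fun l => match l with
    | none => .pop k (fun o => match o with
        | none => none
        | some true => MT.entry.elim (some none) (fun l => some (some (Sum.inl l)))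
        | some false => if stop then none else
            MF.entry.elim (some none) (fun l => some (some (Sum.inr l))))
    | some (Sum.inl l) =>
        (MT.prog l).mapL (fun o => o.elim (some none) (fun l => some (some (Sum.inl l))))
    | some (Sum.inr l) =>
        (MF.prog l).mapL (fun o => o.elim (some none) (fun l => some (some (Sum.inr l))))

theorem Runs.loop_nil {k : K} {stop : Bool} {MT MF : Mach K} {S : K → List Bool} (hS : S k = []) :
    (loop k stop MT MF).Runs S S 1 := by
  have h0 := Reach.one (loop k stop MT MF) (some none, S)
  have e : (loop k stop MT MF).step (some none, S) = (none, S) := by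
    show Instr.exec ((loop k stop MT MF).prog none) S = _
    simp only [loop, Instr.exec, hS, List.head?_nil, List.tail_nil]
    rw [← hS, upd_self]
  rw [e] at h0
  exact h0

theorem Runs.loop_stop {k : K} {MT MF : Mach K} {S : K → List Bool} {x : List Bool}
    (hS : S k = false :: x) : (loop k true MT MF).Runs S (upd S k x) 1 := by
  have h0 := Reach.one (loop k true MT MF) (some none, S)
  have e : (loop k true MT MF).step (some none, S) = (none, upd S k x) := by
    show Instr.exec ((loop k true MT MF).prog none) S = _
    simp only [loop, Instr.exec, hS, List.head?_cons, List.tail_cons, if_true]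
  rw [e] at h0
  exact h0

theorem Runs.loop_true {k : K} {stop : Bool} {MT MF : Mach K} {S S' T : K → List Bool}
    {x : List Bool} {t t' : ℕ} (hS : S k = true :: x) (h : MT.Runs (upd S k x) S' t)
    (h' : (loop k stop MT MF).Runs S' T t') : (loop k stop MT MF).Runs S T (t + t' + 1) := by
  have h1 := sim MT (loop k stop MT MF) (fun l => some (Sum.inl l)) (some none) (fun l => rfl)
    t _ _ _ h
  have h0 := Reach.one (loop k stop MT MF) (some none, S)
  have e : (loop k stop MT MF).step (some none, S) =
      (MT.entry.elim (some none) (fun l => some (some (Sum.inl l))), upd S k x) := by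
    show Instr.exec ((loop k stop MT MF).prog none) S = _
    simp only [loop, Instr.exec, hS, List.head?_cons, List.tail_cons]
  rw [e] at h0
  exact ((h0.trans h1).trans h').mono (by omega)

theorem Runs.loop_false {k : K} {MT MF : Mach K} {S S' T : K → List Bool}
    {x : List Bool} {t t' : ℕ} (hS : S k = false :: x) (h : MF.Runs (upd S k x) S' t)
    (h' : (loop k false MT MF).Runs S' T t') : (loop k false MT MF).Runs S T (t + t' + 1) := by
  have h1 := sim MF (loop k false MT MF) (fun l => some (Sum.inr l)) (some none) (fun l => rfl)
    t _ _ _ h
  have h0 := Reach.one (loop k false MT MF) (some none, S)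
  have e : (loop k false MT MF).step (some none, S) =
      (MF.entry.elim (some none) (fun l => some (some (Sum.inr l))), upd S k x) := by
    show Instr.exec ((loop k false MT MF).prog none) S = _
    simp only [loop, Instr.exec, hS, List.head?_cons, List.tail_cons, Bool.false_eq_true,
      if_false]
  rw [e] at h0
  exact ((h0.trans h1).trans h').mono (by omega)

/-- Rename registers. -/
def rename {K' : Type} (ι : K → K') (M : Mach K) : Mach K' where
  L := M.L
  fin := M.fin
  entry := M.entry
  prog := fun l => (M.prog l).mapK ι

theorem Runs.rename {K' : Type} {ι : K → K'} (hι : Function.Injective ι) {M : Mach K}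
    {S T : K → List Bool} {t : ℕ} (h : M.Runs S T t) (S' : K' → List Bool)
    (hS : ∀ k, S' (ι k) = S k) (T' : K' → List Bool) (hT : ∀ k, T' (ι k) = T k)
    (hT' : ∀ j, j ∉ Set.range ι → T' j = S' j) : (M.rename ι).Runs S' T' t := by
  obtain ⟨t', ht', h⟩ := h
  refine ⟨t', ht', ?_⟩
  have key : ∀ (n : ℕ) (l : Option M.L) (S : K → List Bool) (S' : K' → List Bool),
      (∀ k, S' (ι k) = S k) →
      ((M.rename ι).step^[n] (l, S')).1 = (M.step^[n] (l, S)).1 ∧
      (∀ k, ((M.rename ι).step^[n] (l, S')).2 (ι k) = (M.step^[n] (l, S)).2 k) ∧
      ∀ j, j ∉ Set.range ι → ((M.rename ι).step^[n] (l, S')).2 j = S' j := by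
    intro n
    induction n with
    | zero => intro l S S' hS; exact ⟨rfl, hS, fun _ _ => rfl⟩
    | succ n ih =>
      intro l S S' hS
      rw [Function.iterate_succ_apply, Function.iterate_succ_apply]
      cases l with
      | none => exact ih none S S' hS
      | some l =>
        have e1 : ((M.rename ι).step (some l, S')).1 = (M.step (some l, S)).1 := by
          show (((M.prog l).mapK ι).exec S').1 = ((M.prog l).exec S).1
          cases M.prog l <;> simp [Instr.mapK, Instr.exec, hS]
        have e2 : ∀ k, ((M.rename ι).step (some l, S')).2 (ι k) = (M.step (some l, S)).2 k := by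
          intro k
          show (((M.prog l).mapK ι).exec S').2 (ι k) = ((M.prog l).exec S).2 k
          cases M.prog l with
          | push k' b n =>
            by_cases hk : k = k'
            · subst hk; simp [Instr.mapK, Instr.exec, hS]
            · simp [Instr.mapK, Instr.exec, hS, upd_ne _ _ hk, upd_ne _ _ (hι.ne hk)]
          | pop k' n =>
            by_cases hk : k = k'
            · subst hk; simp [Instr.mapK, Instr.exec, hS]
            · simp [Instr.mapK, Instr.exec, hS, upd_ne _ _ hk, upd_ne _ _ (hι.ne hk)]
        have e3 : ∀ j, j ∉ Set.range ι → ((M.rename ι).step (some l, S')).2 j = S' j := by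
          intro j hj
          show (((M.prog l).mapK ι).exec S').2 j = S' j
          cases M.prog l with
          | push k b n =>
            exact upd_ne _ _ (fun h => hj ⟨k, h.symm⟩)
          | pop k n =>
            exact upd_ne _ _ (fun h => hj ⟨k, h.symm⟩)
        obtain ⟨a, b, c⟩ := ih (M.step (some l, S)).1 (M.step (some l, S)).2
          ((M.rename ι).step (some l, S')).2 e2
        have e4 : (M.rename ι).step (some l, S') =
            ((M.step (some l, S)).1, ((M.rename ι).step (some l, S')).2) := Prod.ext e1 rfl
        have e5 : (M.rename ι).step^[n] ((M.rename ι).step (some l, S')) =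
            (M.rename ι).step^[n] ((M.step (some l, S)).1, ((M.rename ι).step (some l, S')).2) :=
          congrArg _ e4
        refine ⟨(congrArg Prod.fst e5).trans a, fun k => ?_, fun j hj => ?_⟩
        · exact (congrFun (congrArg Prod.snd e5) _).trans (b k)
        · exact (congrFun (congrArg Prod.snd e5) _).trans ((c j hj).trans (e3 j hj))
  obtain ⟨a, b, c⟩ := key t' M.entry S S' hS
  rw [h] at a b
  refine Prod.ext a ?_
  funext j
  by_cases hj : j ∈ Set.range ι
  · obtain ⟨k, rfl⟩ := hj
    exact (b k).trans (hT k).symm
  · exact (c j hj).trans (hT' j hj).symm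

/-- Each step lengthens a register by at most one. -/
theorem Runs.length_le {M : Mach K} {S T : K → List Bool} {t : ℕ} (h : M.Runs S T t) (k : K) :
    (T k).length ≤ (S k).length + t := by
  obtain ⟨t', ht', h⟩ := h
  have key : ∀ (n : ℕ) (c : Option M.L × (K → List Bool)),
      ((M.step^[n] c).2 k).length ≤ (c.2 k).length + n := by
    intro n
    induction n with
    | zero => intro c; simp
    | succ n ih =>
      intro c
      rw [Function.iterate_succ_apply]
      refine (ih _).trans ?_
      have : ((M.step c).2 k).length ≤ (c.2 k).length + 1 := by
        obtain ⟨l, S⟩ := c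
        cases l with
        | none => exact Nat.le_succ _
        | some l =>
          show (((M.prog l).exec S).2 k).length ≤ (S k).length + 1
          cases M.prog l with
          | push k' b n =>
            by_cases hk : k = k'
            · subst hk; simp [Instr.exec]
            · simp [Instr.exec, upd_ne _ _ hk]
          | pop k' n =>
            by_cases hk : k = k'
            · subst hk; simp [Instr.exec]; omega
            · simp [Instr.exec, upd_ne _ _ hk]
      omega
  have := key t' (M.entry, S)
  rw [h] at this
  simp only at this
  omega

end Mach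

/-- The store holding `x` in the input/output register and nothing else. -/
def st {τ : Type} (x : List Bool) : Option τ → List Bool
  | none => x
  | some _ => []

section ToTM2

open Turing Turing.TM2

variable {τ : Type}

/-- Jump statement. -/
def jumpS (M : Mach (Option τ)) :
    Option M.L → Stmt (fun _ : Option τ => Bool) (Option M.L) (Option Bool)
  | none => Stmt.halt
  | some l => Stmt.goto (fun _ => some l)

/-- Translation of an instruction. -/
def instrS (M : Mach (Option τ)) :
    Instr (Option τ) (Option M.L) → Stmt (fun _ : Option τ => Bool) (Option M.L) (Option Bool)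
  | .push k b n => Stmt.push k (fun _ => b) (jumpS M n)
  | .pop k n => Stmt.pop k (fun _ o => o)
      (Stmt.branch (fun v => v.isNone) (jumpS M (n none))
        (Stmt.branch (fun v => v == some true)
          (Stmt.load (fun _ => none) (jumpS M (n (some true))))
          (Stmt.load (fun _ => none) (jumpS M (n (some false))))))

/-- The bundled stack machine. -/
noncomputable def toTM [Finite τ] (M : Mach (Option τ)) : FinTM2 :=
  @FinTM2.mk (Option τ) (Classical.decEq _) (Fintype.ofFinite _) none none (fun _ => Bool)
    (Option M.L) none (by haveI := M.fin; exact Fintype.ofFinite _) (Option Bool) none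
    inferInstance inferInstance
    (fun l => match l with
      | none => jumpS M M.entry
      | some l => instrS M (M.prog l))

/-- Translation of configurations. -/
def cfgOf [Finite τ] (M : Mach (Option τ)) (c : Option M.L × (Option τ → List Bool)) :
    (toTM M).Cfg :=
  ⟨c.1.map some, none, c.2⟩

theorem stepAux_jumpS [Finite τ] (M : Mach (Option τ)) (n : Option M.L)
    (S : Option τ → List Bool) :
    @stepAux (Option τ) (fun _ => Bool) (Option M.L) (Option Bool) (Classical.decEq _)
      (jumpS M n) none S = cfgOf M (n, S) := by
  cases n <;> rfl

theorem step_cfgOf [Finite τ] (M : Mach (Option τ)) (l : M.L) (S : Option τ → List Bool) :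
    (toTM M).step (cfgOf M (some l, S)) = some (cfgOf M (M.step (some l, S))) := by
  show some (@stepAux (Option τ) (fun _ => Bool) (Option M.L) (Option Bool) (Classical.decEq _)
    (instrS M (M.prog l)) none S) = some (cfgOf M ((M.prog l).exec S))
  congr 1
  cases M.prog l with
  | push k b n =>
    simp only [instrS, stepAux, Instr.exec, stepAux_jumpS]
    rw [@upd_eq_update _ (Classical.decEq _)]
  | pop k n =>
    simp only [instrS, stepAux, Instr.exec]
    rw [@upd_eq_update _ (Classical.decEq _)]
    rcases h : (S k).head? with _ | _ | _ <;> simp [stepAux_jumpS]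

theorem evals_of_iter [Finite τ] (M : Mach (Option τ)) (t : ℕ)
    (c : Option M.L × (Option τ → List Bool)) (T : Option τ → List Bool)
    (h : M.step^[t] c = (none, T)) :
    ∃ t' ≤ t, (flip bind (toTM M).step)^[t'] (some (cfgOf M c)) = some (cfgOf M (none, T)) := by
  induction t generalizing c with
  | zero => exact ⟨0, le_rfl, by simp only [Function.iterate_zero, id_eq] at h ⊢; rw [h]⟩
  | succ t ih =>
    obtain ⟨l, S⟩ := c
    cases l with
    | none =>
      rw [Mach.iter_none] at h
      exact ⟨0, Nat.zero_le _, by simp only [Function.iterate_zero, id_eq]; rw [h]⟩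
    | some l =>
      rw [Function.iterate_succ_apply] at h
      obtain ⟨t', ht', h'⟩ := ih _ h
      refine ⟨t' + 1, by omega, ?_⟩
      rw [Function.iterate_succ_apply]
      have : flip bind (toTM M).step (some (cfgOf M (some l, S))) =
          some (cfgOf M (M.step (some l, S))) := step_cfgOf M l S
      rw [this]
      exact h'

theorem polyTimeComputable_of_runs {α β : Type} (ea : α → List Bool) (eb : β → List Bool)
    (f : α → β) [Finite τ] (M : Mach (Option τ)) (p : Polynomial ℕ)
    (h : ∀ a, M.Runs (st (ea a)) (st (eb (f a))) (p.eval (ea a).length)) :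
    Crest.Complexity.PolyTimeComputable ea eb f := by
  refine ⟨⟨⟨toTM M, Equiv.refl _, Equiv.refl _⟩, p + 1, fun a => ?_⟩⟩
  have hex : ∃ t' ≤ p.eval (ea a).length,
      (flip bind (toTM M).step)^[t'] (some (cfgOf M (M.entry, st (ea a)))) =
        some (cfgOf M (none, st (eb (f a)))) := by
    obtain ⟨t, ht, h⟩ := h a
    obtain ⟨t', ht', h'⟩ := evals_of_iter M t _ _ h
    exact ⟨t', ht'.trans ht, h'⟩
  have hst : ∀ x : List Bool, (fun k : Option τ => @dite (List Bool) (k = none)
      (Classical.decEq _ k none) (fun _ => x) (fun _ => [])) = st x := by
    intro x; funext k; cases k <;> simp [st]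
  refine ⟨⟨hex.choose + 1, ?_⟩, ?_⟩
  · rw [Function.iterate_succ_apply]
    have e1 : flip bind (toTM M).step (some (initList (toTM M)
        (List.map (Equiv.refl Bool).invFun (ea a)))) = some (cfgOf M (M.entry, st (ea a))) := by
      show some (@stepAux (Option τ) (fun _ => Bool) (Option M.L) (Option Bool) (Classical.decEq _)
        (jumpS M M.entry) none _) = _
      rw [stepAux_jumpS]
      congr 3
      rw [← hst]
      funext k
      simp [toTM]
    have e2 : Option.map (haltList (toTM M)) (some (List.map (Equiv.refl Bool).invFun (eb (f a)))) =
        some (cfgOf M (none, st (eb (f a)))) := by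
      simp only [Option.map_some, cfgOf, haltList, Option.map_none]
      congr 2
      rw [← hst]
      funext k
      simp [toTM]
    exact (congrArg _ e1).trans (hex.choose_spec.2.trans e2.symm)
  · have := hex.choose_spec.1
    simp only [Polynomial.eval_add, Polynomial.eval_one]
    omega

end ToTM2

end Crest.Agent.PT
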