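import Crest.Agent.PT.Arith

/-!
Polynomial-time functions of a pair of strings presented through `pairEnc`.
-/

set_option autoImplicit false
set_option linter.dupNamespace false

namespace Crest.Agent.PT

namespace PairTM

open Turing Turing.TM2

variable {τ : Type}

/-- Stack alphabets: the input stack carries tagged bits. -/
def G (τ : Type) : Option (Option τ) → Type
  | none => Bool ⊕ Bool
  | some _ => Bool

/-- Internal state. -/
abbrev V : Type := Option (Bool ⊕ Bool)

/-- Jump statement. -/
def jumpS (M : Mach (Option τ)) : Option M.L → Stmt (G τ) (Option M.L) V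
  | none => Stmt.halt
  | some l => Stmt.goto (fun _ => some l)

/-- Translation of an instruction. -/
def instrS (M : Mach (Option τ)) :
    Instr (Option τ) (Option M.L) → Stmt (G τ) (Option M.L) V
  | .push k b n => Stmt.push (some k) (fun _ => b) (jumpS M n)
  | .pop k n => Stmt.pop (some k) (fun _ o => Option.map (Sum.inl : Bool → Bool ⊕ Bool) o)
      (Stmt.branch (fun v => v.isNone) (jumpS M (n none))
        (Stmt.branch (fun v => v == some (Sum.inl true))
          (Stmt.load (fun _ => none) (jumpS M (n (some true))))
          (Stmt.load (fun _ => none) (jumpS M (n (some false))))))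

/-- The bit carried by a state. -/
def bitOf : V → Bool
  | some (Sum.inl b) => b
  | some (Sum.inr b) => b
  | none => false

/-- The tag carried by a state. -/
def tagOf : V → Bool
  | some (Sum.inl _) => true
  | _ => false

/-- The reading loop. -/
def readS (M : Mach (Option τ)) (a b : Option τ) : Stmt (G τ) (Option M.L) V :=
  Stmt.pop none (fun _ o => o)
    (Stmt.branch (fun v => v.isNone) (jumpS M M.entry)
      (Stmt.branch tagOf
        (Stmt.push (some a) bitOf (Stmt.load (fun _ => none) (Stmt.goto (fun _ => none))))
        (Stmt.push (some b) bitOf (Stmt.load (fun _ => none) (Stmt.goto (fun _ => none))))))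

/-- The bundled stack machine. -/
noncomputable def toTM [Finite τ] (M : Mach (Option τ)) (a b : Option τ) : FinTM2 :=
  @FinTM2.mk (Option (Option τ)) (Classical.decEq _) (Fintype.ofFinite _) none (some none) (G τ)
    (Option M.L) none (by haveI := M.fin; exact Fintype.ofFinite _) V none
    inferInstance (inferInstanceAs (Fintype (Bool ⊕ Bool)))
    (fun l => match l with
      | none => readS M a b
      | some l => instrS M (M.prog l))

/-- Stacks from an input word and a store. -/
def stk (w : List (Bool ⊕ Bool)) (S : Option τ → List Bool) : ∀ k, List (G τ k)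
  | none => w
  | some k => S k

theorem update_some (w : List (Bool ⊕ Bool)) (S : Option τ → List Bool) (k : Option τ)
    (v : List Bool) :
    @Function.update _ (fun k => List (G τ k)) (Classical.decEq _) (stk w S) (some k) v =
      stk w (upd S k v) := by
  funext j
  cases j with
  | none =>
    exact @Function.update_of_ne _ (fun k => List (G τ k)) (Classical.decEq _) none (some k)
      (by simp) v (stk w S)
  | some j =>
    by_cases h : j = k
    · subst h
      exact (@Function.update_self _ (fun k => List (G τ k)) (Classical.decEq _) (some j) v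
        (stk w S)).trans (upd_same S j v).symm
    · exact (@Function.update_of_ne _ (fun k => List (G τ k)) (Classical.decEq _) (some j) (some k)
        (by simpa using h) v (stk w S)).trans (upd_ne S v h).symm

theorem update_none (w w' : List (Bool ⊕ Bool)) (S : Option τ → List Bool) :
    @Function.update _ (fun k => List (G τ k)) (Classical.decEq _) (stk w S) none w' =
      stk w' S := by
  funext j
  cases j with
  | none =>
    exact @Function.update_self _ (fun k => List (G τ k)) (Classical.decEq _) none w' (stk w S)
  | some j =>
    exact @Function.update_of_ne _ (fun k => List (G τ k)) (Classical.decEq _) (some j) none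
      (by simp) w' (stk w S)

/-- Translation of configurations. -/
def cfgOf [Finite τ] (M : Mach (Option τ)) (a b : Option τ)
    (c : Option M.L × (Option τ → List Bool)) : (toTM M a b).Cfg :=
  ⟨c.1.map some, none, stk [] c.2⟩

/-- Configurations of the reading phase. -/
def cfgR [Finite τ] (M : Mach (Option τ)) (a b : Option τ) (w : List (Bool ⊕ Bool))
    (S : Option τ → List Bool) : (toTM M a b).Cfg :=
  ⟨some none, none, stk w S⟩

theorem stepAux_jumpS [Finite τ] (M : Mach (Option τ)) (a b : Option τ) (n : Option M.L)
    (S : Option τ → List Bool) :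
    @stepAux (Option (Option τ)) (G τ) (Option M.L) V (Classical.decEq _)
      (jumpS M n) none (stk [] S) = cfgOf M a b (n, S) := by
  cases n <;> rfl

theorem step_cfgOf [Finite τ] (M : Mach (Option τ)) (a b : Option τ) (l : M.L)
    (S : Option τ → List Bool) :
    (toTM M a b).step (cfgOf M a b (some l, S)) = some (cfgOf M a b (M.step (some l, S))) := by
  show some (@stepAux (Option (Option τ)) (G τ) (Option M.L) V (Classical.decEq _)
    (instrS M (M.prog l)) none (stk [] S)) = some (cfgOf M a b ((M.prog l).exec S))
  congr 1
  cases M.prog l with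
  | push k c n =>
    simp only [instrS, stepAux, Instr.exec]
    exact (congrArg _ (update_some [] S k (c :: S k))).trans (stepAux_jumpS M a b n _)
  | pop k n =>
    have hu := update_some [] S k (S k).tail
    show @stepAux (Option (Option τ)) (G τ) (Option M.L) V (Classical.decEq _) _
      (Option.map (Sum.inl : Bool → Bool ⊕ Bool) (S k).head?)
      (@Function.update _ (fun k => List (G τ k)) (Classical.decEq _) (stk [] S) (some k)
        (S k).tail) = cfgOf M a b (n (S k).head?, upd S k (S k).tail)
    rw [hu]
    rcases h : (S k).head? with _ | _ | _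
    · exact stepAux_jumpS M a b _ _
    · exact stepAux_jumpS M a b _ _
    · exact stepAux_jumpS M a b _ _

theorem evals_of_iter [Finite τ] (M : Mach (Option τ)) (a b : Option τ) (t : ℕ)
    (c : Option M.L × (Option τ → List Bool)) (T : Option τ → List Bool)
    (h : M.step^[t] c = (none, T)) :
    ∃ t' ≤ t, (flip bind (toTM M a b).step)^[t'] (some (cfgOf M a b c)) =
      some (cfgOf M a b (none, T)) := by
  induction t generalizing c with
  | zero => exact ⟨0, le_rfl, by simp only [Function.iterate_zero, id_eq] at h ⊢; rw [h]⟩
  | succ t ih =>
    obtain ⟨l, S⟩ := c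
    cases l with
    | none =>
      rw [Mach.iter_none] at h
      exact ⟨0, Nat.zero_le _, by simp only [Function.iterate_zero, id_eq]; rw [h]⟩
    | some l =>
      rw [Function.iterate_succ_apply] at h
      obtain ⟨t', ht', h'⟩ := ih _ h
      refine ⟨t' + 1, by omega, ?_⟩
      rw [Function.iterate_succ_apply]
      have : flip bind (toTM M a b).step (some (cfgOf M a b (some l, S))) =
          some (cfgOf M a b (M.step (some l, S))) := step_cfgOf M a b l S
      rw [this]
      exact h'

theorem step_nil [Finite τ] (M : Mach (Option τ)) (a b : Option τ) (S : Option τ → List Bool) :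
    (toTM M a b).step (cfgR M a b [] S) = some (cfgOf M a b (M.entry, S)) := by
  show some (@stepAux (Option (Option τ)) (G τ) (Option M.L) V (Classical.decEq _)
    (jumpS M M.entry) none
      (@Function.update _ (fun k => List (G τ k)) (Classical.decEq _) (stk [] S) none [])) = _
  exact congrArg some ((congrArg _ (update_none [] [] S)).trans (stepAux_jumpS M a b _ S))

theorem step_inl [Finite τ] (M : Mach (Option τ)) (a b : Option τ) (c : Bool)
    (w : List (Bool ⊕ Bool)) (S : Option τ → List Bool) :
    (toTM M a b).step (cfgR M a b (Sum.inl c :: w) S) = some (cfgR M a b w (upd S a (c :: S a))) := by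
  show some (⟨some none, none,
    @Function.update _ (fun k => List (G τ k)) (Classical.decEq _)
      (@Function.update _ (fun k => List (G τ k)) (Classical.decEq _) (stk (Sum.inl c :: w) S)
        none w) (some a)
      (c :: @Function.update _ (fun k => List (G τ k)) (Classical.decEq _) (stk (Sum.inl c :: w) S)
        none w (some a))⟩ : Cfg (G τ) (Option M.L) V) = _
  rw [update_none]
  exact congrArg (fun s => some (⟨some none, none, s⟩ : Cfg (G τ) (Option M.L) V))
    (update_some w S a (c :: S a))

theorem step_inr [Finite τ] (M : Mach (Option τ)) (a b : Option τ) (c : Bool)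
    (w : List (Bool ⊕ Bool)) (S : Option τ → List Bool) :
    (toTM M a b).step (cfgR M a b (Sum.inr c :: w) S) = some (cfgR M a b w (upd S b (c :: S b))) := by
  show some (⟨some none, none,
    @Function.update _ (fun k => List (G τ k)) (Classical.decEq _)
      (@Function.update _ (fun k => List (G τ k)) (Classical.decEq _) (stk (Sum.inr c :: w) S)
        none w) (some b)
      (c :: @Function.update _ (fun k => List (G τ k)) (Classical.decEq _) (stk (Sum.inr c :: w) S)
        none w (some b))⟩ : Cfg (G τ) (Option M.L) V) = _
  rw [update_none]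
  exact congrArg (fun s => some (⟨some none, none, s⟩ : Cfg (G τ) (Option M.L) V))
    (update_some w S b (c :: S b))

theorem read_inl [Finite τ] (M : Mach (Option τ)) (a b : Option τ) (x : List Bool)
    (w : List (Bool ⊕ Bool)) (S : Option τ → List Bool) :
    (flip bind (toTM M a b).step)^[x.length] (some (cfgR M a b (x.map Sum.inl ++ w) S)) =
      some (cfgR M a b w (upd S a (x.reverse ++ S a))) := by
  induction x generalizing S with
  | nil => simp
  | cons c x ih =>
    rw [List.length_cons, Function.iterate_succ_apply]
    have : flip bind (toTM M a b).step (some (cfgR M a b ((c :: x).map Sum.inl ++ w) S)) =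
        some (cfgR M a b (x.map Sum.inl ++ w) (upd S a (c :: S a))) := step_inl M a b c _ S
    rw [this, ih]
    simp

theorem read_inr [Finite τ] (M : Mach (Option τ)) (a b : Option τ) (x : List Bool)
    (S : Option τ → List Bool) :
    (flip bind (toTM M a b).step)^[x.length] (some (cfgR M a b (x.map Sum.inr) S)) =
      some (cfgR M a b [] (upd S b (x.reverse ++ S b))) := by
  induction x generalizing S with
  | nil => simp
  | cons c x ih =>
    rw [List.length_cons, Function.iterate_succ_apply]
    have : flip bind (toTM M a b).step (some (cfgR M a b ((c :: x).map Sum.inr) S)) =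
        some (cfgR M a b (x.map Sum.inr) (upd S b (c :: S b))) := step_inr M a b c _ S
    rw [this, ih]
    simp

theorem of_runs {β : Type} (eb : β → List Bool) (f : List Bool × List Bool → β) [Finite τ]
    (M : Mach (Option τ)) (a b : Option τ) (p : Polynomial ℕ)
    (h : ∀ q : List Bool × List Bool, M.Runs
      (upd (upd (fun _ => []) a q.1.reverse) b (q.2.reverse ++ upd (fun _ => []) a q.1.reverse b))
      (st (eb (f q))) (p.eval (q.1.length + q.2.length))) :
    Crest.Complexity.PolyTimeComputable Crest.Complexity.pairEnc eb f := by
  refine ⟨⟨⟨toTM M a b, Equiv.refl _, Equiv.refl _⟩, p + Polynomial.X + 1, fun q => ?_⟩⟩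
  have henc : Crest.Complexity.pairEnc q = q.1.map Sum.inl ++ q.2.map Sum.inr := rfl
  have hex : ∃ t' ≤ p.eval (q.1.length + q.2.length),
      (flip bind (toTM M a b).step)^[t'] (some (cfgOf M a b (M.entry,
        (upd (upd (fun _ => []) a q.1.reverse) b
          (q.2.reverse ++ upd (fun _ => []) a q.1.reverse b))))) =
        some (cfgOf M a b (none, st (eb (f q)))) := by
    obtain ⟨t, ht, h⟩ := h q
    obtain ⟨t', ht', h'⟩ := evals_of_iter M a b t _ _ h
    exact ⟨t', ht'.trans ht, h'⟩
  refine ⟨⟨hex.choose + 1 + q.2.length + q.1.length, ?_⟩, ?_⟩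
  · have e0 : initList (toTM M a b) (List.map (Equiv.refl (Bool ⊕ Bool)).invFun
        (Crest.Complexity.pairEnc q)) =
        cfgR M a b (q.1.map Sum.inl ++ q.2.map Sum.inr) (fun _ => []) := by
      simp only [initList, cfgR]
      congr 1
      funext k
      cases k with
      | none => exact (dif_pos rfl).trans (List.map_id _)
      | some k => exact dif_neg (by simp [toTM])
    have e2 : Option.map (haltList (toTM M a b))
        (some (List.map (Equiv.refl Bool).invFun (eb (f q)))) =
        some (cfgOf M a b (none, st (eb (f q)))) := by
      simp only [Option.map_some, cfgOf, haltList]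
      congr 2
      funext k
      rcases k with _ | _ | k
      · exact dif_neg (by simp [toTM])
      · exact (dif_pos rfl).trans (List.map_id _)
      · exact dif_neg (by simp [toTM])
    have e3 := read_inl M a b q.1 (q.2.map Sum.inr) (fun _ => [])
    have e4 := read_inr M a b q.2 (upd (fun _ => []) a (q.1.reverse ++ []))
    have e5 : flip bind (toTM M a b).step (some (cfgR M a b [] _)) = _ := step_nil M a b
      (upd (upd (fun _ => []) a q.1.reverse) b (q.2.reverse ++ upd (fun _ => []) a q.1.reverse b))
    rw [List.append_nil] at e3 e4
    refine Eq.trans ?_ (hex.choose_spec.2.trans e2.symm)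
    rw [Function.iterate_add_apply, Function.iterate_add_apply, Function.iterate_succ_apply]
    refine congrArg _ ?_
    refine Eq.trans ?_ e5
    refine congrArg _ ?_
    refine Eq.trans ?_ e4
    refine congrArg _ ?_
    refine Eq.trans ?_ e3
    exact congrArg _ (congrArg some e0)
  · have := hex.choose_spec.1
    simp only [Polynomial.eval_add, Polynomial.eval_one, Polynomial.eval_X, henc,
      List.length_append, List.length_map]
    omega

end PairTM

/-- A `PT` function of a pair of raw strings is polynomial-time on the tagged presentation. -/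
theorem PT.toPair {β γ : Type} [Enc β] {f : Raw × Raw → β} (hf : PT f) (eb : γ → List Bool)
    (g : List Bool × List Bool → γ) (H : ∀ q, eb (g q) = enc (f (⟨q.1⟩, ⟨q.2⟩))) :
    Crest.Complexity.PolyTimeComputable Crest.Complexity.pairEnc eb g := by
  have hg : PT (fun p : Raw × Raw => f (p.2, p.1)) :=
    hf.comp (f := fun p : Raw × Raw => (p.2, p.1)) (by fun_prop)
  obtain ⟨τ, _, M, T, ⟨k, hk⟩, h⟩ := hg
  refine PairTM.of_runs (τ := Bool ⊕ τ) _ _
    ((Mach.move r2 none r1).seq ((Mach.move r1 r2 none).seq
      (Mach.mkPair.seq (M.rename (emb none id))))) r1 r2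
    (40 * Polynomial.X + 20 + (2 * Polynomial.X + 3) ^ k) (fun q => ?_)
  obtain ⟨x, y⟩ := q
  have e0 : (upd (upd (fun _ => []) r1 x.reverse) r2
      (y.reverse ++ upd (fun _ => []) (r1 : Option (Bool ⊕ τ)) x.reverse r2) :
      Option (Bool ⊕ τ) → List Bool) = st3 [] x.reverse y.reverse := by
    funext j; rcases j with _ | (_ | _) | _ <;> simp [upd, st3]
  have h1 := Mach.runs_move (τ := τ) (k := r2) (k1 := none) (k2 := r1) (by simp) (by simp)
    (by simp) (st3 [] x.reverse y.reverse)
  have h2 := Mach.runs_move (τ := τ) (k := r1) (k1 := r2) (k2 := none) (by simp) (by simp)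
    (by simp) (st3 y x.reverse [])
  simp only [st3_io, st3_r1, st3_r2, upd_st3_io, upd_st3_r1, upd_st3_r2, List.append_nil,
    List.reverse_reverse, List.length_reverse] at h1 h2
  have h3 := Mach.runs_mkPair (τ := τ) y x
  have h4 := runs_emb (τ := τ) (r := none) (by simp) Function.injective_id
    (h (⟨y⟩, ⟨x⟩)) (st3 (dbl y ++ false :: x) [] []) rfl (fun _ => rfl)
  simp only [upd_st3_io] at h4
  have h5 := hk (⟨y⟩, ⟨x⟩)
  simp only [sz_pair, sz_raw] at h5
  have h6 : (2 * y.length + x.length + 1 + 2) ^ k ≤ (2 * (x.length + y.length) + 3) ^ k :=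
    Nat.pow_le_pow_left (by omega) k
  simp only
  rw [e0, st_eq_st3, H]
  refine (h1.seq (h2.seq (h3.seq h4))).mono ?_
  simp only [Polynomial.eval_add, Polynomial.eval_mul, Polynomial.eval_X, Polynomial.eval_pow,
    Polynomial.eval_ofNat]
  omega

/-- Tests on pairs. -/
theorem PT.toPred₂ {f : Raw × Raw → Bool} (hf : PT f) :
    Crest.Complexity.PolyTimePred₂ (fun q => f (⟨q.1⟩, ⟨q.2⟩)) :=
  hf.toPair _ _ (fun _ => rfl)

end Crest.Agent.PT
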